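import Mathlib.Combinatorics.SimpleGraph.Acyclic
import Mathlib.MeasureTheory.Constructions.UnitInterval
import Mathlib.MeasureTheory.Group.Arithmetic
import Mathlib.Probability.ProductMeasure

/-!
# P161: Ising measures on a tree and factors of IID
-/

open MeasureTheory

namespace Vale.Agent.N161X

open Classical in
/-- `μ` is a probability measure on `{-1,1}^V` such that, for every finite set `D` of vertices
spanning a connected subgraph and all spins `η`,
`μ(σ = η on D) = 1/2 * ∏_{edges e = uv inside D} (1 + θ_e η_u η_v)/2`. -/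
def Ising {V : Type*} (G : SimpleGraph V) (θ : Sym2 V → ℝ) (μ : Measure (V → ℤˣ)) : Prop :=
  IsProbabilityMeasure μ ∧ ∀ D : Finset V, (G.induce (D : Set V)).Connected → ∀ η : V → ℤˣ,
    μ.real {σ | ∀ v ∈ D, σ v = η v} =
      1 / 2 * ∏ e ∈ D.sym2 with e ∈ G.edgeSet, (1 + θ e * (((e.map η).mul : ℤ) : ℝ)) / 2

/-- `ν` is the law of `Φ(U)`, where the `U_v` are i.i.d. uniform on `[0,1]`, `Φ` is measurable and
`Φ(gU) = gΦ(U)` almost surely for each fixed automorphism `g` in `Γ`; `(g x)_v = x_(g⁻¹ v)`. -/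
def Factor {V : Type*} (G : SimpleGraph V) (Γ : Set (G ≃g G)) (ν : Measure (V → ℤˣ)) : Prop :=
  ∃ Φ : (V → unitInterval) → V → ℤˣ, Measurable Φ ∧
    Measure.map Φ (Measure.infinitePi fun _ : V => volume) = ν ∧
    ∀ g ∈ Γ, ∀ᵐ x ∂(Measure.infinitePi fun _ : V => volume),
      Φ (fun v => x (g.symm v)) = fun v => Φ x (g.symm v)

/-- the graph on the vertices outside `M` in which `u ≠ w` are joined when they are adjacent in `G`
or have a common neighbour in `M` -/
def Reduced {V : Type*} (G : SimpleGraph V) (M : Set V) : SimpleGraph {v // v ∉ M} :=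
  SimpleGraph.fromRel fun u w => G.Adj u w ∨ ∃ x ∈ M, G.Adj x u ∧ G.Adj x w

end Vale.Agent.N161X
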