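import Vale.Agent.N161X.Red

/-!
# P161: from the reduced tree back to the tree, by sampling the missing spins
-/

open MeasureTheory

namespace Vale.Agent.N161X

open Vale.Agent.P161 Vale.Agent.N161 SimpleGraph

universe u

variable {V : Type u} {G : SimpleGraph V} {M : Set V}

theorem ext_cofinal {μ ν : Measure (V → ℤˣ)} [IsProbabilityMeasure ν]
    (h : ∀ I : Finset V, ∃ D : Finset V, I ⊆ D ∧
      ∀ η : V → ℤˣ, μ {σ | ∀ v ∈ D, σ v = η v} = ν {σ | ∀ v ∈ D, σ v = η v}) : μ = ν := by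
  classical
  have := msc_units
  have hcyl : ∀ (D : Finset V) (η : D → ℤˣ),
      (D.restrict : (V → ℤˣ) → (D → ℤˣ)) ⁻¹' {η} = {σ : V → ℤˣ | ∀ v ∈ D, σ v = ext1 D η v} := by
    intro D η
    ext σ
    simp only [Set.mem_preimage, Set.mem_singleton_iff, Set.mem_ofPred_eq]
    constructor
    · rintro rfl v hv
      rw [ext1_of_mem _ hv]
      rfl
    · intro h
      funext ⟨v, hv⟩
      have := h v hv
      rw [ext1_of_mem _ hv] at this
      exact this
  have hall : ∀ I : Finset V, μ.map I.restrict = ν.map I.restrict := by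
    intro I
    obtain ⟨D, hID, hD⟩ := h I
    have e : (I.restrict : (V → ℤˣ) → (I → ℤˣ)) = Finset.restrict₂ hID ∘ D.restrict := rfl
    have h2 : μ.map D.restrict = ν.map D.restrict := by
      refine Measure.ext_of_singleton fun η => ?_
      rw [Measure.map_apply (Finset.measurable_restrict D) (measurableSet_singleton _),
        Measure.map_apply (Finset.measurable_restrict D) (measurableSet_singleton _), hcyl, hD]
    rw [e, ← Measure.map_map (Finset.measurable_restrict₂ hID) (Finset.measurable_restrict D),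
      ← Measure.map_map (Finset.measurable_restrict₂ hID) (Finset.measurable_restrict D), h2]
  have : ∀ I : Finset V, IsFiniteMeasure (ν.map (I.restrict : (V → ℤˣ) → (I → ℤˣ))) :=
    fun I => inferInstance
  exact IsProjectiveLimit.unique (P := fun I => ν.map I.restrict) (fun I => hall I) (fun I => rfl)

/-- the conditional probability of the spin `ε` between the spins `α` and `β` -/
noncomputable def qq (s t : ℝ) (α β ε : ℤˣ) : ℝ :=
  (1 + s * ((ε * α : ℤˣ) : ℤ)) * (1 + t * ((ε * β : ℤˣ) : ℤ)) /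
    (2 * (1 + s * t * ((α * β : ℤˣ) : ℤ)))

theorem qq_comm (s t : ℝ) (α β ε : ℤˣ) : qq s t α β ε = qq t s β α ε := by
  unfold qq
  rw [mul_comm α, mul_comm s t, mul_comm (1 + s * _)]

theorem un_abs (a : ℤˣ) : |((a : ℤ) : ℝ)| = 1 := by
  rcases Int.units_eq_one_or a with h | h <;> simp [h]

theorem un_pos {r : ℝ} (h : |r| < 1) (a : ℤˣ) : 0 < 1 + r * ((a : ℤ) : ℝ) := by
  have := abs_lt.1 h
  rcases Int.units_eq_one_or a with h | h <;> simp [h] <;> linarith [this.1, this.2]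

theorem un_nonneg {r : ℝ} (h : |r| ≤ 1) (a : ℤˣ) : 0 ≤ 1 + r * ((a : ℤ) : ℝ) := by
  have := abs_le.1 h
  rcases Int.units_eq_one_or a with h | h <;> simp [h] <;> linarith [this.1, this.2]

theorem qq_nonneg {s t : ℝ} (hs : |s| ≤ 1) (ht : |t| ≤ 1) (h : |s * t| < 1) (α β ε : ℤˣ) :
    0 ≤ qq s t α β ε :=
  div_nonneg (mul_nonneg (un_nonneg hs _) (un_nonneg ht _))
    (mul_nonneg zero_le_two (un_pos h _).le)

theorem qq_add {s t : ℝ} (h : |s * t| < 1) (α β : ℤˣ) :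
    qq s t α β (-1) = 1 - qq s t α β 1 := by
  have := (un_pos h (α * β)).ne'
  unfold qq
  field_simp
  push_cast
  ring

open Classical in
/-- the sampled spin -/
noncomputable def smp (s t : ℝ) (α β : ℤˣ) (τ : unitInterval) : ℤˣ :=
  if (τ : ℝ) ≤ qq s t α β 1 then 1 else -1

theorem vol_smp {s t : ℝ} (hs : |s| ≤ 1) (ht : |t| ≤ 1) (h : |s * t| < 1) (α β ε : ℤˣ) :
    volume {τ | smp s t α β τ = ε} = ENNReal.ofReal (qq s t α β ε) := by
  have a := qq_nonneg hs ht h α β 1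
  have b := qq_nonneg hs ht h α β (-1)
  rw [qq_add h] at b
  let p : unitInterval := ⟨qq s t α β 1, a, by linarith⟩
  rcases Int.units_eq_one_or ε with rfl | rfl
  · rw [← unitInterval.volume_Iic (x := p)]
    refine congrArg _ (Set.ext fun τ => ?_)
    show smp s t α β τ = 1 ↔ (τ : ℝ) ≤ qq s t α β 1
    unfold smp
    split_ifs with c <;> simp [c]
  · rw [qq_add h, ← unitInterval.volume_Ioi (x := p)]
    refine congrArg _ (Set.ext fun τ => ?_)
    show smp s t α β τ = -1 ↔ qq s t α β 1 < (τ : ℝ)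
    unfold smp
    split_ifs with c
    · exact iff_of_false (by decide) c.not_gt
    · exact iff_of_true rfl (not_le.1 c)

theorem measurable_smp (s t : ℝ) :
    Measurable fun q : (ℤˣ × ℤˣ) × unitInterval => smp s t q.1.1 q.1.2 q.2 := by
  have := msc_units
  exact Measurable.ite (measurableSet_le (measurable_subtype_coe.comp measurable_snd)
    ((measurable_of_countable fun a : ℤˣ × ℤˣ => qq s t a.1 a.2 1).comp measurable_fst))
    measurable_const measurable_const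

namespace Ends

variable (E : Ends G M)

open Classical in
/-- spins on the tree from spins on the reduced tree and labels on `M` -/
noncomputable def fill (θ : Sym2 V → ℝ) (q : ({v // v ∉ M} → ℤˣ) × (M → unitInterval)) (v : V) :
    ℤˣ :=
  if h : v ∈ M then smp (θ s(v, E.a ⟨v, h⟩)) (θ s(v, E.b ⟨v, h⟩)) (q.1 (E.a ⟨v, h⟩))
    (q.1 (E.b ⟨v, h⟩)) (q.2 ⟨v, h⟩) else q.1 ⟨v, h⟩

theorem fill_val (θ : Sym2 V → ℝ) (q) (u : {v // v ∉ M}) : E.fill θ q u = q.1 u := dif_neg u.2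

theorem fill_mid (θ : Sym2 V → ℝ) (q) (x : M) : E.fill θ q x =
    smp (θ s(x, E.a x)) (θ s(x, E.b x)) (q.1 (E.a x)) (q.1 (E.b x)) (q.2 x) := dif_pos x.2

theorem measurable_fill (θ : Sym2 V → ℝ) : Measurable (E.fill θ) := by
  refine measurable_pi_lambda _ fun v => ?_
  by_cases h : v ∈ M
  · simp only [E.fill_mid θ _ ⟨v, h⟩]
    have m : Measurable fun q : ({v // v ∉ M} → ℤˣ) × (M → unitInterval) =>
        ((q.1 (E.a ⟨v, h⟩), q.1 (E.b ⟨v, h⟩)), q.2 ⟨v, h⟩) :=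
      (((measurable_pi_apply _).comp measurable_fst).prodMk
        ((measurable_pi_apply _).comp measurable_fst)).prodMk
        ((measurable_pi_apply _).comp measurable_snd)
    have := (measurable_smp (θ s(v, E.a ⟨v, h⟩)) (θ s(v, E.b ⟨v, h⟩))).comp m
    exact this
  · simp only [E.fill_val θ _ ⟨v, h⟩]
    exact (measurable_pi_apply _).comp measurable_fst

theorem fill_aut {θ : Sym2 V → ℝ} (g : G ≃g G) (hg : ∀ v, g v ∈ M ↔ v ∈ M) (hk : Keeps G θ g)
    (σ : {v // v ∉ M} → ℤˣ) (y : M → unitInterval) (v : V) :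
    E.fill θ (fun u => σ (E.res g hg u), fun x => y ⟨g x, (hg _).2 x.2⟩) v =
      E.fill θ (σ, y) (g v) := by
  by_cases h : v ∈ M
  · rw [E.fill_mid θ _ ⟨v, h⟩, E.fill_mid θ _ ⟨g v, (hg v).2 h⟩]
    have a := hk _ _ (E.adj_a ⟨v, h⟩)
    have b := hk _ _ (E.adj_b ⟨v, h⟩)
    rcases Sym2.eq_iff.1 (E.ed_res g hg ⟨v, h⟩) with k | k
    · simp only [← k.1, ← k.2]
      rw [← a, ← b]
      rfl
    · simp only [← k.1, ← k.2]
      rw [← a, ← b]
      unfold smp
      rw [qq_comm]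
      rfl
  · rw [E.fill_val θ _ ⟨v, h⟩, E.fill_val θ _ ⟨g v, fun k => h ((hg v).1 k)⟩]
    rfl

theorem lf (hG : G.IsAcyclic) [G.LocallyFinite] : Nonempty E.H.LocallyFinite :=
  ⟨fun u => (Set.finite_of_encard_eq_coe (k := (G.neighborSet u).ncard) (by
    rw [E.encard_nb hG, (Set.toFinite _).cast_ncard_eq])).fintype⟩

theorem fill_law (hG : G.IsTree) [G.LocallyFinite] {θ : Sym2 V → ℝ}
    {θ' : Sym2 {v // v ∉ M} → ℝ} (ha : ∀ x : M, |θ s(x, E.a x)| ≤ 1)
    (hb : ∀ x : M, |θ s(x, E.b x)| ≤ 1) (hab : ∀ x : M, |θ s(x, E.a x) * θ s(x, E.b x)| < 1)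
    (h1 : ∀ u w : {v // v ∉ M}, G.Adj u w → θ' s(u, w) = θ s(u, w))
    (h2 : ∀ x : M, θ' (E.ed x) = θ s(x, E.a x) * θ s(x, E.b x))
    {ν : Measure ({v // v ∉ M} → ℤˣ)} (hν : IsIsing E.H θ' ν) {μ : Measure (V → ℤˣ)}
    (hμ : IsIsing G θ μ) : (ν.prod (lab M)).map (E.fill θ) = μ := by
  classical
  have := msc_units
  have := hμ.1
  have := hν.1
  obtain ⟨_⟩ := E.lf hG.isAcyclic
  have hH := E.tree hG
  have : Nonempty {v // v ∉ M} := hH.connected.nonempty
  have inj := E.ed_inj hG.isAcyclic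
  refine ext_cofinal fun I => ?_
  obtain ⟨D0, hI, hD0⟩ := exists_connected_superset hH
    (I.biUnion fun v => if h : v ∈ M then {E.a ⟨v, h⟩, E.b ⟨v, h⟩} else {⟨v, h⟩})
  obtain ⟨F, hF⟩ : ∃ F : Finset M, ∀ x, x ∈ F ↔ E.a x ∈ D0 ∧ E.b x ∈ D0 :=
    ⟨D0.sym2.preimage E.ed inj.injOn, fun x => by
      rw [Finset.mem_preimage, ed, Finset.mk_mem_sym2_iff]⟩
  obtain ⟨D, dS, dM⟩ : ∃ D : Finset V, (∀ u : {v // v ∉ M}, (u : V) ∈ D ↔ u ∈ D0) ∧
      ∀ x : M, (x : V) ∈ D ↔ x ∈ F := by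
    refine ⟨D0.image Subtype.val ∪ F.image Subtype.val, fun u => ?_, fun x => ?_⟩ <;>
      simp only [Finset.mem_union, Finset.mem_image]
    · exact ⟨fun h => h.elim (fun ⟨_, a, b⟩ => Subtype.ext b ▸ a)
        fun ⟨x, _, b⟩ => absurd b (nm x u), fun h => .inl ⟨u, h, rfl⟩⟩
    · exact ⟨fun h => h.elim (fun ⟨u, _, b⟩ => absurd b.symm (nm x u))
        fun ⟨_, a, b⟩ => Subtype.ext b ▸ a, fun h => .inr ⟨x, h, rfl⟩⟩
  have fe : ∀ {x : M} {u w}, s(u, w) = E.ed x → u ∈ D0 → w ∈ D0 → x ∈ F := by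
    intro x u w h hu hw
    rw [hF]
    rcases Sym2.eq_iff.1 h with k | k
    · exact ⟨k.1 ▸ hu, k.2 ▸ hw⟩
    · exact ⟨k.2 ▸ hw, k.1 ▸ hu⟩
  have hD : (G.induce (D : Set V)).Connected := by
    have c1 : ∀ u w : (D0 : Set {v // v ∉ M}), (G.induce (D : Set V)).Reachable
        ⟨u.1, (dS _).2 u.2⟩ ⟨w.1, (dS _).2 w.2⟩ := by
      intro u w
      obtain ⟨p⟩ := hD0.preconnected u w
      induction p with
      | nil => exact .rfl
      | @cons u v w h _ ih =>
        refine Reachable.trans ?_ ih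
        rcases h with h | ⟨x, h⟩
        · exact Adj.reachable h
        · obtain ⟨-, a, b⟩ := E.ed_eq.1 h
          have k := (dM x).2 (fe h u.2 v.2)
          have a' : (G.induce (D : Set V)).Adj ⟨x, k⟩ ⟨u.1, (dS _).2 u.2⟩ := a
          have b' : (G.induce (D : Set V)).Adj ⟨x, k⟩ ⟨v.1, (dS _).2 v.2⟩ := b
          exact a'.symm.reachable.trans b'.reachable
    have c2 : ∀ v : (D : Set V), ∃ u : (D0 : Set {v // v ∉ M}),
        (G.induce (D : Set V)).Reachable v ⟨u.1, (dS _).2 u.2⟩ := by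
      rintro ⟨v, hv⟩
      by_cases h : v ∈ M
      · exact ⟨⟨E.a ⟨v, h⟩, ((hF _).1 ((dM ⟨v, h⟩).1 hv)).1⟩, Adj.reachable (E.adj_a ⟨v, h⟩)⟩
      · exact ⟨⟨⟨v, h⟩, (dS ⟨v, h⟩).1 hv⟩, .rfl⟩
    obtain ⟨o⟩ := hD0.nonempty
    have : Nonempty (D : Set V) := ⟨⟨o.1, (dS _).2 o.2⟩⟩
    refine ⟨fun v w => ?_⟩
    obtain ⟨v', a⟩ := c2 v
    obtain ⟨w', b⟩ := c2 w
    exact (a.trans (c1 v' w')).trans b.symm
  refine ⟨D, fun v hv => ?_, fun η => ?_⟩
  · by_cases h : v ∈ M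
    · refine (dM ⟨v, h⟩).2 ((hF _).2 ⟨hI ?_, hI ?_⟩) <;>
        exact Finset.mem_biUnion.2 ⟨v, hv, by simp [h]⟩
    · exact (dS ⟨v, h⟩).2 (hI (Finset.mem_biUnion.2 ⟨v, hv, by simp [h]⟩))
  let A : M → Set unitInterval := fun x =>
    {τ | smp (θ s(x, E.a x)) (θ s(x, E.b x)) (η (E.a x)) (η (E.b x)) τ = η x}
  have mA : ∀ x, MeasurableSet (A x) := fun x =>
    ((measurable_smp _ _).comp (measurable_prodMk_left (x := (η (E.a x), η (E.b x)))))
      (measurableSet_singleton (η x))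
  have ev : E.fill θ ⁻¹' {σ | ∀ v ∈ D, σ v = η v} =
      {σ | ∀ u ∈ D0, σ u = (fun u : {v // v ∉ M} => η u) u} ×ˢ Set.pi F A := by
    ext q
    simp only [Set.mem_preimage, Set.mem_ofPred_eq, Set.mem_prod, Set.mem_pi, Finset.mem_coe, A]
    constructor
    · intro h
      have a : ∀ u ∈ D0, q.1 u = η u := fun u hu => by rw [← h u ((dS u).2 hu), E.fill_val]
      refine ⟨a, fun x hx => ?_⟩
      rw [← h x ((dM x).2 hx), E.fill_mid, a _ ((hF x).1 hx).1, a _ ((hF x).1 hx).2]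
    · rintro ⟨a, b⟩ v hv
      by_cases h : v ∈ M
      · have hx := (dM ⟨v, h⟩).1 hv
        rw [E.fill_mid θ _ ⟨v, h⟩, a _ ((hF _).1 hx).1, a _ ((hF _).1 hx).2]
        exact b _ hx
      · rw [E.fill_val θ _ ⟨v, h⟩]
        exact a _ ((dS ⟨v, h⟩).1 hv)
  rw [Measure.map_apply (E.measurable_fill θ) (measurableSet_cyl _ _), ev, Measure.prod_prod,
    Measure.infinitePi_pi _ (fun x _ => mA x), hν.2 D0 hD0, hμ.2 D hD]
  simp only [A, fun x => vol_smp (ha x) (hb x) (hab x)]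
  rw [← ENNReal.ofReal_prod_of_nonneg fun x _ => qq_nonneg (ha x) (hb x) (hab x) _ _ _,
    ← ENNReal.ofReal_mul' (Finset.prod_nonneg fun x _ => qq_nonneg (ha x) (hb x) (hab x) _ _ _),
    mul_assoc]
  refine congrArg (fun t => ENNReal.ofReal (1 / 2 * t)) ?_
  set E0 := D0.sym2.filter fun e => e.map Subtype.val ∈ G.edgeSet with hE0
  have m0 : ∀ u w, s(u, w) ∈ E0 ↔ (u ∈ D0 ∧ w ∈ D0) ∧ G.Adj u w := fun u w => by
    rw [hE0, Finset.mem_filter, Finset.mk_mem_sym2_iff]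
    rfl
  have eH : D0.sym2.filter (fun e => e ∈ E.H.edgeSet) = E0 ∪ F.image E.ed := by
    ext e
    induction e using Sym2.ind with
    | _ u w =>
    rw [Finset.mem_union, m0, Finset.mem_filter, Finset.mk_mem_sym2_iff, Finset.mem_image]
    constructor
    · rintro ⟨a, b | ⟨x, b⟩⟩
      · exact .inl ⟨a, b⟩
      · exact .inr ⟨x, fe b a.1 a.2, b.symm⟩
    · rintro (⟨a, b⟩ | ⟨x, a, b⟩)
      · exact ⟨a, .inl b⟩
      · exact ⟨Finset.mk_mem_sym2_iff.1 (b ▸ Finset.mk_mem_sym2_iff.2 ((hF x).1 a)),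
          .inr ⟨x, b.symm⟩⟩
  have eG : D.sym2.filter (fun e => e ∈ G.edgeSet) = E0.image (Sym2.map Subtype.val) ∪
      (F.image (fun x : M => s((x : V), (E.a x : V))) ∪
        F.image fun x : M => s((x : V), (E.b x : V))) := by
    ext e
    simp only [Finset.mem_union, Finset.mem_image, Finset.mem_filter]
    constructor
    · induction e using Sym2.ind with
      | _ u w =>
      rw [Finset.mk_mem_sym2_iff]
      rintro ⟨⟨a, b⟩, c⟩
      by_cases hu : u ∈ M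
      · refine .inr (((E.adj ⟨u, hu⟩ w).1 c).imp ?_ ?_) <;>
          exact fun k => ⟨⟨u, hu⟩, (dM _).1 a, k ▸ rfl⟩
      by_cases hw : w ∈ M
      · refine .inr (((E.adj ⟨w, hw⟩ u).1 (Adj.symm c)).imp ?_ ?_) <;>
          exact fun k => ⟨⟨w, hw⟩, (dM _).1 b, k ▸ Sym2.eq_swap⟩
      exact .inl ⟨s(⟨u, hu⟩, ⟨w, hw⟩),
        (m0 _ _).2 ⟨⟨(dS ⟨u, hu⟩).1 a, (dS ⟨w, hw⟩).1 b⟩, c⟩, rfl⟩
    · rintro (⟨e, a, rfl⟩ | ⟨x, a, rfl⟩ | ⟨x, a, rfl⟩)
      · induction e using Sym2.ind with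
        | _ u w =>
        have := (m0 u w).1 a
        exact ⟨Finset.mk_mem_sym2_iff.2 ⟨(dS _).2 this.1.1, (dS _).2 this.1.2⟩, this.2⟩
      · exact ⟨Finset.mk_mem_sym2_iff.2 ⟨(dM _).2 a, (dS _).2 ((hF x).1 a).1⟩, E.adj_a x⟩
      · exact ⟨Finset.mk_mem_sym2_iff.2 ⟨(dM _).2 a, (dS _).2 ((hF x).1 a).2⟩, E.adj_b x⟩
  have ms : ∀ {x y : M} {u w : {v // v ∉ M}}, s((x : V), (u : V)) = s((y : V), (w : V)) →
      x = y ∧ u = w := fun h => (Sym2.eq_iff.1 h).elim
    (fun k => ⟨Subtype.ext k.1, Subtype.ext k.2⟩) fun k => absurd k.1 (nm _ _)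
  have ns : ∀ (e : Sym2 {v // v ∉ M}) (x : M) (v : V), e.map Subtype.val ≠ s((x : V), v) := by
    intro e x v h
    obtain ⟨u, -, k⟩ := Sym2.mem_map.1 (h ▸ Sym2.mem_mk_left (x : V) v)
    exact nm x u k.symm
  rw [eH, eG, Finset.prod_union, Finset.prod_union, Finset.prod_union,
    Finset.prod_image inj.injOn,
    Finset.prod_image (Sym2.map.injective Subtype.val_injective).injOn,
    Finset.prod_image fun x _ y _ h => (ms h).1, Finset.prod_image fun x _ y _ h => (ms h).1,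
    mul_assoc, ← Finset.prod_mul_distrib, ← Finset.prod_mul_distrib]
  · refine congrArg₂ (· * ·) (Finset.prod_congr rfl fun e he => ?_)
      (Finset.prod_congr rfl fun x _ => ?_)
    · induction e using Sym2.ind with
      | _ u w =>
      rw [h1 u w ((m0 u w).1 he).2]
      rfl
    · have := (un_pos (hab x) (η (E.a x) * η (E.b x))).ne'
      rw [h2]
      simp only [ed, Sym2.map_mk, Sym2.mul_mk, qq]
      field_simp
  · rw [Finset.disjoint_left]
    intro e a b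
    obtain ⟨x, -, rfl⟩ := Finset.mem_image.1 a
    obtain ⟨y, -, h⟩ := Finset.mem_image.1 b
    obtain ⟨rfl, k⟩ := ms h
    exact E.ne _ k.symm
  · rw [Finset.disjoint_left]
    intro e a b
    obtain ⟨e, -, rfl⟩ := Finset.mem_image.1 a
    rcases Finset.mem_union.1 b with b | b <;> obtain ⟨y, -, h⟩ := Finset.mem_image.1 b <;>
      exact ns _ _ _ h.symm
  · rw [Finset.disjoint_left]
    intro e a b
    obtain ⟨x, -, rfl⟩ := Finset.mem_image.1 b
    exact E.not_adj hG.isAcyclic rfl ((m0 _ _).1 a).2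

end Ends

end Vale.Agent.N161X
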