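import Vale.Agent.N161X.Trans

/-!
# P161: trees obtained from a regular tree by replacing the edges by paths of even length
-/

open MeasureTheory

namespace Vale.Agent.N161X

open Vale.Agent.P161 Vale.Agent.N161 SimpleGraph

universe u

/-- `p v` is the distance from `v` to the vertices of degree `d`, which are joined by paths of
length `2 j` -/
structure Lay (d j : ℕ) {V : Type u} (G : SimpleGraph V) (p : V → ℕ) : Prop where
  tree : G.IsTree
  deg : ∀ v, (G.neighborSet v).ncard = if p v = 0 then d else 2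
  adj : ∀ u v, G.Adj u v → p v = p u + 1 ∨ p u = p v + 1
  le : ∀ v, p v ≤ j
  dn : ∀ v, 0 < p v → ∃ u, G.Adj v u ∧ p v = p u + 1
  up : ∀ v, 0 < p v → p v < j → ∃ u, G.Adj v u ∧ p u = p v + 1

variable {d j : ℕ}

theorem Lay.aut {V : Type u} {G : SimpleGraph V} {p : V → ℕ} (L : Lay d j G p) (hd : 3 ≤ d)
    (g : G ≃g G) (v : V) : p (g v) = p v := by
  have key : ∀ (g : G ≃g G) n v, p v = n → p (g v) ≤ n := by
    intro g n
    induction n with
    | zero =>
      intro v h
      have a := L.deg (g v)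
      rw [ncard_aut, L.deg v, if_pos h] at a
      split_ifs at a <;> omega
    | succ n ih =>
      intro v h
      obtain ⟨u, a, b⟩ := L.dn v (by omega)
      have := ih u (by omega)
      have := L.adj _ _ (g.map_adj_iff.2 a)
      omega
  refine le_antisymm (key g _ v rfl) ?_
  have := key g.symm _ (g v) rfl
  rwa [g.symm_apply_apply] at this

theorem Lay.lf {V : Type u} {G : SimpleGraph V} {p : V → ℕ} (L : Lay d j G p) (hd : 3 ≤ d) :
    Nonempty G.LocallyFinite :=
  ⟨fun v => (Set.finite_of_ncard_pos (by rw [L.deg]; split_ifs <;> omega)).fintype⟩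

theorem factor_iff {V : Type u} {G : SimpleGraph V} {μ : Measure (V → ℤˣ)} :
    Factor G Set.univ μ ↔ IsFactorOfIID G μ :=
  ⟨fun ⟨Φ, a, b, c⟩ => ⟨Φ, a, fun g => c g trivial, b⟩,
    fun ⟨Φ, a, b, c⟩ => ⟨Φ, a, c, fun g _ => b g⟩⟩

theorem lay_iff (hd : 3 ≤ d) (j : ℕ) : ∀ {V : Type u} {G : SimpleGraph V} {p : V → ℕ},
    Lay d (j + 1) G p → ∀ {t : ℕ → ℝ}, (∀ i, |t i| < 1) → ∀ {θ : Sym2 V → ℝ},
    (∀ u v, G.Adj u v → p v = p u + 1 → θ s(u, v) = t (p u)) → ∀ {μ : Measure (V → ℤˣ)},
    IsIsing G θ μ → (Factor G Set.univ μ ↔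
      (∏ i ∈ Finset.range (j + 1), t i) ^ 2 ≤ ((d : ℝ) - 1) ^ (-(1 / 2) : ℝ)) := by
  have pre : ∀ {j : ℕ} {V : Type u} {G : SimpleGraph V} {p : V → ℕ}, Lay d j G p →
      ∀ {t : ℕ → ℝ}, (∀ i, |t i| < 1) → ∀ {θ : Sym2 V → ℝ},
      (∀ u v, G.Adj u v → p v = p u + 1 → θ s(u, v) = t (p u)) →
      Nonempty (Ends G {v | p v = 1}) ∧ (∀ u v, G.Adj u v → |θ s(u, v)| < 1) ∧
        ∀ g : G ≃g G, (∀ v, g v ∈ {v | p v = 1} ↔ v ∈ {v | p v = 1}) ∧ Keeps G θ g := by
    intro j V G p L t ht θ hθ
    refine ⟨exists_ends (fun x hx => by rw [L.deg, if_neg (by rw [show p x = 1 from hx]; omega)])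
      fun x hx y hy a => ?_, fun u v a => ?_, fun g => ⟨fun v => ?_, fun u v a => ?_⟩⟩
    · have := L.adj _ _ a
      rw [show p x = 1 from hx, show p y = 1 from hy] at this
      omega
    · rcases L.adj _ _ a with k | k
      · rw [hθ _ _ a k]
        exact ht _
      · rw [Sym2.eq_swap, hθ _ _ a.symm k]
        exact ht _
    · simp only [Set.mem_ofPred_eq, L.aut hd]
    · have b := g.map_adj_iff.2 a
      rcases L.adj _ _ a with k | k
      · rw [hθ _ _ a k, hθ _ _ b (by rwa [L.aut hd, L.aut hd]), L.aut hd]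
      · rw [Sym2.eq_swap, Sym2.eq_swap (a := u), hθ _ _ a.symm k,
          hθ _ _ b.symm (by rwa [L.aut hd, L.aut hd]), L.aut hd]
  induction j with
  | zero =>
    intro V G p L t ht θ hθ μ hμ
    obtain ⟨⟨E⟩, h1, hΓ⟩ := pre L ht hθ
    obtain ⟨_⟩ := L.lf hd
    obtain ⟨_⟩ := E.lf L.tree.isAcyclic
    have p0 : ∀ u : {v // v ∉ {v | p v = 1}}, p u = 0 := fun u => by
      have := L.le u
      have : p u ≠ 1 := u.2
      omega
    have nb : ∀ u w : {v // v ∉ {v | p v = 1}}, ¬ G.Adj u w := fun u w a => by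
      have := L.adj _ _ a
      rw [p0, p0] at this
      omega
    have tt : |t 0 * t 0| < 1 := by
      rw [abs_mul]
      exact mul_lt_one_of_nonneg_of_lt_one_left (abs_nonneg _) (ht 0) (ht 0).le
    have e : ∀ (x : {v | p v = 1}) (u : {v // v ∉ {v | p v = 1}}), G.Adj x u →
        θ s(x, u) = t 0 := fun x u a => by
      rw [Sym2.eq_swap, hθ _ _ a.symm (by rw [p0]; exact x.2), p0]
    obtain ⟨ν, hν⟩ := exists_ising (E.tree L.tree) (J := fun _ => t 0 * t 0) fun _ _ => tt.le
    rw [E.series_univ L.tree h1 (fun u w a => absurd a (nb u w))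
      (fun x => by rw [e _ _ (E.adj_a x), e _ _ (E.adj_b x)]) hν hμ hΓ
      (fun h u w => iff_of_false (nb _ _) (nb _ _)), factor_iff,
      P161T11.threshold E.H (E.tree L.tree) d hd (fun v => by
        rw [← card_neighborSet_eq_degree, ← Nat.card_eq_fintype_card]
        exact (E.ncard_nb L.tree.isAcyclic v).trans ((L.deg v).trans (if_pos (p0 v)))) tt ν
        (isIsing_iff.1 hν), abs_mul_self, Finset.prod_range_one, sq]
  | succ j ih =>
    intro V G p L t ht θ hθ μ hμ
    obtain ⟨⟨E⟩, h1, hΓ⟩ := pre L ht hθ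
    obtain ⟨_⟩ := L.lf hd
    have n1 : ∀ u : {v // v ∉ {v | p v = 1}}, p u ≠ 1 := fun u => u.2
    have ab : ∀ {x : {v | p v = 1}} {u w}, s(u, w) = E.ed x →
        p u = 0 ∧ p w = 2 ∨ p u = 2 ∧ p w = 0 := by
      intro x u w h
      have hx : p x = 1 := x.2
      obtain ⟨y, a, b⟩ := L.dn x (by omega)
      obtain ⟨z, c, e⟩ := L.up x (by omega) (by omega)
      rcases Sym2.eq_iff.1 h with k | k <;> rw [k.1, k.2] <;>
        rcases (E.adj x y).1 a with rfl | rfl <;> rcases (E.adj x z).1 c with rfl | rfl <;> omega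
    have oth : ∀ (u : {v // v ∉ {v | p v = 1}}) (x : {v | p v = 1}), G.Adj u x →
        ∃ w, s(u, w) = E.ed x := fun u x a =>
      (Sym2.mem_iff_exists.1 (E.mem_ed.2 a.symm)).imp fun _ k => k.symm
    have L' : Lay d (j + 1) E.H fun u => p u - 1 := by
      refine ⟨E.tree L.tree, fun u => ?_, ?_, fun u => ?_, fun u h => ?_, fun u h h' => ?_⟩
      · rw [E.ncard_nb L.tree.isAcyclic, L.deg]
        have := n1 u
        split_ifs <;> omega
      · rintro u w (a | ⟨x, a⟩)
        · have := L.adj _ _ a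
          have := n1 u
          have := n1 w
          omega
        · have := ab a
          omega
      · have := L.le u
        omega
      · obtain ⟨y, a, b⟩ := L.dn u (by omega)
        by_cases c : p y = 1
        · obtain ⟨w, k⟩ := oth u ⟨y, c⟩ a
          have := ab k
          exact ⟨w, .inr ⟨_, k⟩, by omega⟩
        · exact ⟨⟨y, c⟩, .inl a, by have := n1 u; simp only; omega⟩
      · obtain ⟨y, a, b⟩ := L.up u (by omega) (by omega)
        exact ⟨⟨y, by show p y ≠ 1; omega⟩, .inl a, by simp only; omega⟩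
    let t' : ℕ → ℝ := fun i => if i = 0 then t 0 * t 1 else t (i + 1)
    have ht' : ∀ i, |t' i| < 1 := fun i => by
      simp only [t']
      split_ifs
      · rw [abs_mul]
        exact mul_lt_one_of_nonneg_of_lt_one_left (abs_nonneg _) (ht 0) (ht 1).le
      · exact ht _
    let θ' : Sym2 {v // v ∉ {v | p v = 1}} → ℝ :=
      Sym2.lift ⟨fun u w => t' (min (p u - 1) (p w - 1)), fun u w => congrArg t' (min_comm _ _)⟩
    obtain ⟨ν, hν⟩ := exists_ising (E.tree L.tree) (J := θ') fun e _ => by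
      induction e using Sym2.ind with
      | _ u w => exact (ht' _).le
    have e0 : ∀ (x : {v | p v = 1}) (u : V), G.Adj x u → p u = 0 → θ s(x, u) = t 0 :=
      fun x u a b => by rw [Sym2.eq_swap, hθ _ _ a.symm (by rw [b]; exact x.2), b]
    have e2 : ∀ (x : {v | p v = 1}) (u : V), G.Adj x u → p u = 2 → θ s(x, u) = t 1 :=
      fun x u a b => by rw [hθ _ _ a (by rw [b, show p x = 1 from x.2]), show p x = 1 from x.2]
    have old : ∀ u w : {v // v ∉ {v | p v = 1}},
        G.Adj u w ↔ E.H.Adj u w ∧ 0 < p u - 1 ∧ 0 < p w - 1 := by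
      refine fun u w => ⟨fun a => ⟨.inl a, ?_⟩, ?_⟩
      · have := L.adj _ _ a
        have := n1 u
        have := n1 w
        omega
      · rintro ⟨a | ⟨x, a⟩, b⟩
        · exact a
        · have := ab a
          omega
    rw [E.series_univ L.tree h1 (θ' := θ') (fun u w a => ?_) (fun x => ?_) hν hμ hΓ
      (fun h u w => by rw [old, old, h.map_adj_iff, L'.aut hd h, L'.aut hd h]),
      ih L' ht' (fun u w _ k => ?_) hν, Finset.prod_range_succ', Finset.prod_range_succ' t,
      Finset.prod_range_succ' fun i => t (i + 1)]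
    · simp only [t', Nat.succ_ne_zero, if_false, if_true, zero_add]
      rw [mul_assoc, mul_comm (t 1)]
    · show t' (min (p u - 1) (p w - 1)) = t' (p u - 1)
      rw [min_eq_left (k ▸ Nat.le_succ _)]
    · have := ((old u w).1 a).2
      show t' (min (p u - 1) (p w - 1)) = _
      rcases L.adj _ _ a with k | k
      · rw [hθ _ _ a k, min_eq_left (by omega)]
        exact (if_neg (by omega)).trans (congrArg t (by omega))
      · rw [Sym2.eq_swap, hθ _ _ a.symm k, min_eq_right (by omega)]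
        exact (if_neg (by omega)).trans (congrArg t (by omega))
    · show t' (min (p (E.a x) - 1) (p (E.b x) - 1)) = _
      rcases ab (x := x) rfl with k | k
      · rw [e0 _ _ (E.adj_a x) k.1, e2 _ _ (E.adj_b x) k.2, k.1, k.2]
        rfl
      · rw [e2 _ _ (E.adj_a x) k.1, e0 _ _ (E.adj_b x) k.2, k.1, k.2, mul_comm]
        rfl

end Vale.Agent.N161X
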