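import Vale.Agent.N161X.Sub
import Mathlib.Combinatorics.SimpleGraph.Metric

/-! Spherically symmetric trees: the `k`-fold subdivided regular tree. -/

namespace Vale.Agent.N161X

open SimpleGraph

/-- admissible addresses: a vertex of the level `n` has `c n` children -/
def sphOk (c : ℕ → ℕ) : List ℕ → Prop
  | [] => True
  | a :: l => a < c l.length ∧ sphOk c l

/-- the spherically symmetric tree -/
def sphG (c : ℕ → ℕ) : SimpleGraph {l : List ℕ // sphOk c l} where
  Adj p q := ∃ a, q.1 = a :: p.1 ∨ p.1 = a :: q.1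
  symm := ⟨fun _ _ h => h.imp fun _ => Or.symm⟩
  loopless := ⟨fun p ⟨a, k⟩ => by
    rcases k with k | k <;> exact absurd (congrArg List.length k) (by simp)⟩

variable {c : ℕ → ℕ}

theorem sph_walk : ∀ (l : List ℕ) (h : sphOk c l),
    ∃ p : (sphG c).Walk ⟨l, h⟩ ⟨[], trivial⟩, p.length = l.length
  | [], _ => ⟨.nil, rfl⟩
  | a :: l, h => by
    obtain ⟨p, hp⟩ := sph_walk l h.2
    have e : (sphG c).Adj ⟨a :: l, h⟩ ⟨l, h.2⟩ := ⟨a, .inr rfl⟩
    exact ⟨.cons e p, by rw [Walk.length_cons, hp, List.length_cons]⟩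

theorem sph_le {p q : {l : List ℕ // sphOk c l}} (w : (sphG c).Walk p q) :
    p.1.length ≤ q.1.length + w.length := by
  induction w with
  | nil => exact Nat.le_add_right _ _
  | cons e _ ih =>
    rw [Walk.length_cons]
    obtain ⟨a, k | k⟩ := e <;> have := congrArg List.length k <;>
      rw [List.length_cons] at this <;> omega

theorem sph_dist (v : {l : List ℕ // sphOk c l}) :
    (sphG c).dist ⟨[], trivial⟩ v = v.1.length := by
  obtain ⟨p, hp⟩ := sph_walk v.1 v.2
  rw [dist_comm]
  refine le_antisymm (hp ▸ dist_le p) ?_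
  obtain ⟨q, hq⟩ := p.reachable.exists_walk_length_eq_dist
  simpa [hq] using sph_le q

theorem sph_tree : (sphG c).IsTree := by
  refine ⟨?_, isAcyclic_iff_forall_isBridge.2 ?_⟩
  · have n : Nonempty {l : List ℕ // sphOk c l} := ⟨⟨[], trivial⟩⟩
    refine ⟨fun p q => ?_⟩
    obtain ⟨u, -⟩ := sph_walk p.1 p.2
    obtain ⟨v, -⟩ := sph_walk q.1 q.2
    exact u.reachable.trans v.reachable.symm
  have key : ∀ (p q : {l : List ℕ // sphOk c l}) a, q.1 = a :: p.1 →
      (sphG c).IsBridge s(q, p) := by
    intro p q a k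
    refine sub_bridge (fun x => q.1 <:+ x.1) List.suffix_rfl (fun h => ?_) ?_
    · have := h.length_le
      rw [k, List.length_cons] at this
      omega
    · rintro x y ⟨b, e | e⟩ n h2
      · exact e ▸ h2.trans (List.suffix_cons _ _)
      · rw [e, List.suffix_cons_iff] at h2
        refine h2.resolve_left fun f => n ?_
        obtain rfl : x = q := Subtype.ext (e.trans f.symm)
        obtain rfl : y = p := Subtype.ext (List.cons.inj (e.symm.trans k)).2
        rfl
  intro e
  induction e with | h p q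
  rintro ⟨a, k | k⟩
  · rw [Sym2.eq_swap]
    exact key p q a k
  · exact key q p a k

theorem sph_Iio (n : ℕ) : (Set.Iio n).ncard = n := by
  rw [← Finset.coe_range, Set.ncard_coe_finset, Finset.card_range]

theorem sph_ncard (v : {l : List ℕ // sphOk c l}) :
    ((sphG c).neighborSet v).ncard = c v.1.length + if v.1.length = 0 then 0 else 1 := by
  obtain ⟨l, hp⟩ := v
  rw [← Set.ncard_image_of_injective _ Subtype.val_injective]
  cases l with
  | nil =>
    have e : Subtype.val '' (sphG c).neighborSet ⟨[], hp⟩ = (fun a => [a]) '' Set.Iio (c 0) := by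
      ext m
      constructor
      · rintro ⟨⟨_, h⟩, ⟨a, k | k⟩, rfl⟩
        · obtain rfl : _ = [a] := k
          exact ⟨a, h.1, rfl⟩
        · exact absurd k (by simp)
      · rintro ⟨a, h, k⟩
        exact ⟨⟨[a], h, trivial⟩, ⟨a, .inl rfl⟩, k⟩
    rw [e, Set.ncard_image_of_injective _ fun a b h => (List.cons.inj h).1, sph_Iio]
    rfl
  | cons b l =>
    have e : Subtype.val '' (sphG c).neighborSet ⟨b :: l, hp⟩ =
        insert l ((fun a => a :: b :: l) '' Set.Iio (c (b :: l).length)) := by
      ext m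
      constructor
      · rintro ⟨⟨_, h⟩, ⟨a, k | k⟩, rfl⟩
        · obtain rfl : _ = a :: b :: l := k
          exact .inr ⟨a, h.1, rfl⟩
        · exact .inl (List.cons.inj k).2.symm
      · rintro (k | ⟨a, h, k⟩)
        · exact ⟨⟨l, hp.2⟩, ⟨b, .inr rfl⟩, k.symm⟩
        · exact ⟨⟨a :: b :: l, h, hp⟩, ⟨a, .inl rfl⟩, k⟩
    rw [e, Set.ncard_insert_of_notMem _ ((Set.finite_Iio _).image _),
      Set.ncard_image_of_injective _ fun a b h => (List.cons.inj h).1, sph_Iio]
    · rfl
    · rintro ⟨a, -, k⟩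
      exact absurd (congrArg List.length k) (by simp; omega)

theorem exists_ksub (d k : ℕ) (hd : 1 ≤ d) :
    ∃ (V : Type) (G : SimpleGraph V) (o : V), G.IsTree ∧
      ∀ v, (G.neighborSet v).ncard = if k ∣ G.dist o v then d else 2 := by
  refine ⟨_, sphG fun n => if n = 0 then d else if k ∣ n then d - 1 else 1, ⟨[], trivial⟩,
    sph_tree, fun v => ?_⟩
  rw [sph_ncard, sph_dist]
  by_cases h : v.1.length = 0
  · simp [h]
  · simp only [if_neg h]
    split_ifs <;> omega

end Vale.Agent.N161X
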