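import Vale.Agent.N161X.Iso
import Vale.Agent.N161X.Lay
import Vale.Agent.N161X.Sph

/-!
# P161: subdivided regular trees; assembly
-/

open MeasureTheory

namespace Vale.Agent.N161X

open Vale.Agent.P161 Vale.Agent.N161 SimpleGraph Sum

universe u

variable {V : Type u} {G : SimpleGraph V} {d k : ℕ}

theorem mod_step {K : ℕ} (hK : 0 < K) (n : ℕ) :
    (n + 1) % K = n % K + 1 ∧ n % K + 1 < K ∨ (n + 1) % K = 0 ∧ n % K + 1 = K := by
  have a := Nat.mod_lt n hK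
  rw [← Nat.mod_add_mod]
  rcases (Nat.succ_le_of_lt a).lt_or_eq with h | h
  · exact .inl ⟨Nat.mod_eq_of_lt h, h⟩
  · exact .inr ⟨by rw [show n % K + 1 = K from h, Nat.mod_self], h⟩

theorem lay_of_level (hG : G.IsTree) (hk : 0 < k) {l : V → ℕ}
    (deg : ∀ v, (G.neighborSet v).ncard = if 2 * k ∣ l v then d else 2)
    (adj : ∀ u v, G.Adj u v → l v = l u + 1 ∨ l u = l v + 1)
    (nb : ∀ v, ¬ 2 * k ∣ l v →
      (∃ u, G.Adj v u ∧ l v = l u + 1) ∧ ∃ u, G.Adj v u ∧ l u = l v + 1) :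
    Lay d k G fun v => min (l v % (2 * k)) (2 * k - l v % (2 * k)) := by
  have K : 0 < 2 * k := by omega
  have st : ∀ {u v}, l v = l u + 1 → l v % (2 * k) = l u % (2 * k) + 1 ∧ l u % (2 * k) + 1 < 2 * k ∨
      l v % (2 * k) = 0 ∧ l u % (2 * k) + 1 = 2 * k := fun h => h ▸ mod_step K _
  have z : ∀ v, 0 < min (l v % (2 * k)) (2 * k - l v % (2 * k)) → ¬ 2 * k ∣ l v := fun v h c => by
    rw [Nat.mod_eq_zero_of_dvd c] at h
    omega
  refine ⟨hG, fun v => ?_, fun u v a => ?_, fun v => by omega, fun v h => ?_, fun v h h' => ?_⟩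
  · have := Nat.mod_lt (l v) K
    simp only [deg, Nat.dvd_iff_mod_eq_zero]
    split_ifs <;> omega
  · rcases adj u v a with h | h <;> have := st h <;> omega
  · obtain ⟨⟨u, a, b⟩, w, c, e⟩ := nb v (z v h)
    have := st b
    have := st e
    by_cases f : l v % (2 * k) ≤ k
    · exact ⟨u, a, by omega⟩
    · exact ⟨w, c, by omega⟩
  · obtain ⟨⟨u, a, b⟩, w, c, e⟩ := nb v (z v h)
    have := st b
    have := st e
    by_cases f : l v % (2 * k) ≤ k
    · exact ⟨w, c, by omega⟩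
    · exact ⟨u, a, by omega⟩

theorem lay_sub (hG : G.IsTree) (hk : 0 < k) {o : V}
    (deg : ∀ v, (G.neighborSet v).ncard = if k ∣ G.dist o v then d else 2) :
    ∃ p, Lay d k (subG G) p ∧ ∀ v, v ∈ Set.range inr ↔ p v % 2 = 1 := by
  refine ⟨_, lay_of_level (sub_tree hG) hk
    (l := Sum.elim (fun v => 2 * G.dist o v) fun e => (e.1.map fun v => G.dist o v).add)
    ?_ ?_ ?_, ?_⟩
  rotate_right
  · have par : ∀ n, min (n % (2 * k)) (2 * k - n % (2 * k)) % 2 = n % 2 := fun n => by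
      have := Nat.mod_mod_of_dvd n (Nat.dvd_mul_right 2 k)
      have := Nat.mod_lt n (show 0 < 2 * k by omega)
      omega
    rintro (v | ⟨e, he⟩) <;> rw [par]
    · simp
    · induction e using Sym2.ind with
      | _ u w =>
      have := hG.dist_eq_dist_add_one_of_adj o (show G.Adj u w from he)
      refine iff_of_true ⟨_, rfl⟩ ?_
      simp only [Sum.elim_inr, Sym2.map_mk, Sym2.add_mk]
      omega
  · rintro (v | ⟨e, he⟩)
    · simp only [sub_inl, deg, Sum.elim_inl, Nat.mul_dvd_mul_iff_left two_pos]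
    · induction e using Sym2.ind with
      | _ u w =>
      have := hG.dist_eq_dist_add_one_of_adj o (show G.Adj u w from he)
      rw [sub_inr, if_neg]
      intro c
      have := (Nat.dvd_mul_right 2 k).trans c
      simp only [Sum.elim_inr, Sym2.map_mk, Sym2.add_mk] at this
      omega
  · rintro _ _ ⟨u, ⟨e, he⟩, h, ⟨rfl, rfl⟩ | ⟨rfl, rfl⟩⟩ <;>
    · obtain ⟨w, rfl⟩ := Sym2.mem_iff_exists.1 h
      have := hG.dist_eq_dist_add_one_of_adj o (show G.Adj u w from he)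
      simp only [Sum.elim_inl, Sum.elim_inr, Sym2.map_mk, Sym2.add_mk]
      omega
  · rintro (v | ⟨e, he⟩) h
    · have c : ¬ k ∣ G.dist o v := fun c => h (Nat.mul_dvd_mul_left 2 c)
      obtain ⟨u, a, b⟩ := P161T11.par_exists hG (o := o) (v := v) (by
        rintro rfl
        exact c (by simp))
      obtain ⟨w, e, n⟩ := Set.exists_ne_of_one_lt_ncard (s := G.neighborSet v)
        (by rw [deg, if_neg c]; omega) u
      have f : G.dist o w = G.dist o v + 1 :=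
        (hG.dist_eq_dist_add_one_of_adj o (show G.Adj v w from e)).resolve_left
          fun f => n (P161T11.par_unique hG (Adj.symm e) a f b)
      refine ⟨⟨inr ⟨s(v, u), a.symm⟩, sub_adj (Sym2.mem_mk_left _ _), ?_⟩,
        inr ⟨s(v, w), e⟩, sub_adj (Sym2.mem_mk_left _ _), ?_⟩ <;>
      simp only [Sum.elim_inl, Sum.elim_inr, Sym2.map_mk, Sym2.add_mk] <;> omega
    · induction e using Sym2.ind with
      | _ u w =>
      have a := (sub_adj (e := ⟨s(u, w), he⟩) (Sym2.mem_mk_left u w)).symm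
      have b := (sub_adj (e := ⟨s(u, w), he⟩) (Sym2.mem_mk_right u w)).symm
      rcases hG.dist_eq_dist_add_one_of_adj o (show G.Adj u w from he) with f | f
      · refine ⟨⟨_, b, ?_⟩, _, a, ?_⟩ <;>
        simp only [Sum.elim_inl, Sum.elim_inr, Sym2.map_mk, Sym2.add_mk] <;> omega
      · refine ⟨⟨_, a, ?_⟩, _, b, ?_⟩ <;>
        simp only [Sum.elim_inl, Sum.elim_inr, Sym2.map_mk, Sym2.add_mk] <;> omega

theorem sub_mid {a : V ⊕ G.edgeSet} {e : G.edgeSet} :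
    (subG G).Adj (inr e) a ↔ ∃ u ∈ e.1, a = inl u := by
  constructor
  · rintro ⟨u, f, h, ⟨k, -⟩ | ⟨k, rfl⟩⟩
    · cases k
    · exact ⟨u, inr_injective k ▸ h, rfl⟩
  · rintro ⟨u, h, rfl⟩
    exact (sub_adj h).symm

/-- a tree with a nonnegative coupling and its subdivision -/
theorem sub_iff (hG : G.IsTree) (hf : ∀ v, 2 < (G.neighborSet v).ncard ∨
    (G.neighborSet v).ncard = 2) {s : ℝ} (hs : |s| < 1) {μ : Measure (V → ℤˣ)}
    (hμ : Ising G (fun _ => s * s) μ) {μ' : Measure (V ⊕ G.edgeSet → ℤˣ)}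
    (hμ' : IsIsing (subG G) (fun _ => s) μ')
    (hM : ∀ (g : subG G ≃g subG G) v, g v ∈ Set.range inr ↔ v ∈ Set.range inr) :
    Factor (subG G) Set.univ μ' ↔ Factor G Set.univ μ := by
  have lf : (subG G).LocallyFinite := fun v => (Set.finite_of_ncard_pos (by
    rcases v with v | e
    · rw [sub_inl]
      have := hf v
      omega
    · rw [sub_inr]
      omega)).fintype
  obtain ⟨E⟩ := exists_ends (G := subG G) (M := Set.range inr)
    (by rintro _ ⟨e, rfl⟩; exact sub_inr e) (by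
      rintro _ ⟨e, rfl⟩ _ ⟨f, rfl⟩ a
      obtain ⟨u, -, k⟩ := sub_mid.1 a
      cases k)
  have nb : ∀ u w : {v // v ∉ Set.range (inr : G.edgeSet → V ⊕ G.edgeSet)},
      ¬ (subG G).Adj u w := by
    rintro u w ⟨_, e, -, ⟨-, k⟩ | ⟨k, -⟩⟩
    exacts [w.2 ⟨e, k.symm⟩, u.2 ⟨e, k.symm⟩]
  let ψ : G ≃g E.H := ⟨Equiv.ofBijective (fun v => ⟨inl v, by simp⟩)
    ⟨fun _ _ h => inl_injective (congrArg Subtype.val h), by
      rintro ⟨v | e, h⟩
      exacts [⟨v, rfl⟩, absurd ⟨e, rfl⟩ h]⟩, by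
    intro u w
    constructor
    · rintro (a | ⟨⟨_, ⟨e, he⟩, rfl⟩, a⟩)
      · exact absurd a (nb _ _)
      · obtain ⟨n, b, c⟩ := E.ed_eq.1 a
        obtain ⟨_, b1, b2⟩ := sub_mid.1 b
        obtain ⟨_, c1, c2⟩ := sub_mid.1 c
        obtain rfl := inl_injective b2
        obtain rfl := inl_injective c2
        rwa [show e = s(u, w) from (Sym2.mem_and_mem_iff fun k => n (by rw [k])).1 ⟨b1, c1⟩] at he
    · intro a
      exact .inr ⟨⟨inr ⟨s(u, w), a⟩, _, rfl⟩, E.ed_eq.2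
        ⟨fun k => a.ne (inl_injective (congrArg Subtype.val k)),
          (sub_adj (Sym2.mem_mk_left _ _)).symm, (sub_adj (Sym2.mem_mk_right _ _)).symm⟩⟩⟩
  have ss : |s * s| ≤ 1 := by
    rw [abs_mul]
    exact mul_le_one₀ hs.le (abs_nonneg _) hs.le
  rw [E.series_univ (sub_tree hG) (fun _ _ _ => hs) (θ' := fun _ => s * s)
    (fun u w a => absurd a (nb u w)) (fun _ => rfl)
    ((ising_iff fun _ _ => ss).1 (ising_iso ψ.symm hμ)) hμ' (fun g => ⟨hM g, fun _ _ _ => rfl⟩)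
    (fun _ _ _ => iff_of_false (nb _ _) (nb _ _)), factor_iso]

theorem unique_ising (hG : G.IsTree) (hf : ∀ v, (G.neighborSet v).Finite) {θ : Sym2 V → ℝ}
    (h : ∀ e ∈ G.edgeSet, |θ e| ≤ 1) : ∃ μ, ∀ ν, Ising G θ ν ↔ ν = μ := by
  have lf : G.LocallyFinite := fun v => (hf v).fintype
  obtain ⟨μ, hμ⟩ := exists_ising hG h
  exact ⟨μ, fun ν => (ising_iff h).trans ⟨fun k => isIsing_unique hG k hμ, fun k => k ▸ hμ⟩⟩

theorem part2 (hd : 3 ≤ d) (hk : 1 ≤ k) (hG : G.IsTree) {o : V}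
    (deg : ∀ v, (G.neighborSet v).ncard = if k ∣ G.dist o v then d else 2) :
    ∃ μ : ℝ → Measure (V → ℤˣ), (∀ β ν, Ising G (fun _ => Real.tanh β) ν ↔ ν = μ β) ∧
      {β : ℝ | 0 ≤ β ∧ Factor G Set.univ (μ β)} =
        {β : ℝ | 0 ≤ β ∧ Real.tanh β ^ k ≤ ((d : ℝ) - 1) ^ (-(1 / 2) : ℝ)} := by
  have hf : ∀ v, 2 < (G.neighborSet v).ncard ∨ (G.neighborSet v).ncard = 2 := fun v => by
    rw [deg]
    split_ifs <;> omega
  choose μ hμ using fun β : ℝ => unique_ising hG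
    (fun v => Set.finite_of_ncard_pos (by have := hf v; omega)) (θ := fun _ => Real.tanh β)
    fun _ _ => (Real.abs_tanh_lt_one β).le
  refine ⟨μ, hμ, Set.ext fun β => and_congr_right fun h => ?_⟩
  have t0 : 0 ≤ Real.tanh β := by
    rw [Real.tanh_eq_sinh_div_cosh]
    exact div_nonneg (Real.sinh_nonneg_iff.2 h) (Real.cosh_pos β).le
  have hs : |√(Real.tanh β)| < 1 := by
    rw [abs_of_nonneg (Real.sqrt_nonneg _), Real.sqrt_lt' one_pos, one_pow]
    exact Real.tanh_lt_one β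
  obtain ⟨p, L, hp⟩ := lay_sub hG hk deg
  obtain ⟨μ', hμ'⟩ := exists_ising L.tree (J := fun _ => √(Real.tanh β)) fun _ _ => hs.le
  obtain ⟨j, rfl⟩ : ∃ j, k = j + 1 := ⟨k - 1, by omega⟩
  rw [← sub_iff hG hf hs (by rw [Real.mul_self_sqrt t0]; exact (hμ β _).2 rfl) hμ'
    (fun g v => by rw [hp, hp, L.aut hd]),
    lay_iff hd j L (t := fun _ => √(Real.tanh β)) (fun _ => hs) (fun _ _ _ _ => rfl) hμ',
    Finset.prod_const, Finset.card_range, ← pow_mul, mul_comm, pow_mul, Real.sq_sqrt t0]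

theorem part1 (hd : 3 ≤ d) (hG : G.IsTree) (hr : ∀ v, (G.neighborSet v).ncard = d) :
    ∃ μ : ℝ → Measure (V → ℤˣ), (∀ β ν, Ising G (fun _ => Real.tanh β) ν ↔ ν = μ β) ∧
      {β : ℝ | 0 ≤ β ∧ Factor G Set.univ (μ β)} =
        {β : ℝ | 0 ≤ β ∧ Real.tanh β ≤ ((d : ℝ) - 1) ^ (-(1 / 2) : ℝ)} := by
  obtain ⟨o⟩ := hG.connected.nonempty
  simpa only [pow_one] using part2 hd le_rfl hG (o := o) fun v => by rw [hr, if_pos (one_dvd _)]

theorem part3 (hG : G.IsTree) (hf : ∀ v, (G.neighborSet v).Finite) (M : Set V)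
    (h2 : ∀ x ∈ M, (G.neighborSet x).ncard = 2) (hI : ∀ x ∈ M, ∀ y ∈ M, ¬ G.Adj x y)
    (θ : Sym2 V → ℝ) (hθ : ∀ e ∈ G.edgeSet, |θ e| < 1) :
    (Reduced G M).IsTree ∧ ∃ (θ' : Sym2 {v // v ∉ M} → ℝ) (μ : Measure (V → ℤˣ))
      (μ' : Measure ({v // v ∉ M} → ℤˣ)),
      (∀ u w : {v // v ∉ M}, G.Adj u w → θ' s(u, w) = θ s(u, w)) ∧
      (∀ u w : {v // v ∉ M}, u ≠ w → ∀ x ∈ M, G.Adj x u → G.Adj x w →
        θ' s(u, w) = θ s(x, u) * θ s(x, w)) ∧
      (∀ ν, Ising G θ ν ↔ ν = μ) ∧ (∀ ν, Ising (Reduced G M) θ' ν ↔ ν = μ') ∧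
      ∀ Γ : Set (G ≃g G), (∀ g ∈ Γ, (∀ v, g v ∈ M ↔ v ∈ M) ∧
          ∀ u v, G.Adj u v → θ s(g u, g v) = θ s(u, v)) →
        (Factor G Γ μ ↔ Factor (Reduced G M) {h | ∃ g ∈ Γ, ∀ u, (h u : V) = g u} μ') := by
  classical
  have lf : G.LocallyFinite := fun v => (hf v).fintype
  obtain ⟨E⟩ := exists_ends h2 hI
  obtain ⟨_⟩ := E.lf hG.isAcyclic
  have e : Reduced G M = E.H := by
    ext u w
    rw [Reduced, fromRel_adj]
    constructor
    · rintro ⟨n, (a | ⟨x, hx, a⟩) | a | ⟨x, hx, a⟩⟩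
      exacts [.inl a, .inr ⟨⟨x, hx⟩, E.ed_eq.2 ⟨n, a⟩⟩, .inl a.symm,
        .inr ⟨⟨x, hx⟩, E.ed_eq.2 ⟨n, a.symm⟩⟩]
    · refine fun h => ⟨h.ne, .inl (Or.imp_right ?_ h)⟩
      exact fun ⟨x, k⟩ => ⟨x, x.2, (E.ed_eq.1 k).2⟩
  rw [e]
  let θ' : Sym2 {v // v ∉ M} → ℝ := Function.extend E.ed
    (fun x => θ s(x, E.a x) * θ s(x, E.b x)) fun e => θ (e.map Subtype.val)
  have k2 : ∀ x, θ' (E.ed x) = θ s(x, E.a x) * θ s(x, E.b x) :=
    (E.ed_inj hG.isAcyclic).extend_apply _ _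
  have k1 : ∀ u w : {v // v ∉ M}, G.Adj u w → θ' s(u, w) = θ s(u, w) := fun u w a =>
    Function.extend_apply' _ _ _ fun ⟨x, k⟩ => E.not_adj hG.isAcyclic k.symm a
  have ha := fun x : M => hθ s(x, E.a x) (E.adj_a x)
  have hb := fun x : M => hθ s(x, E.b x) (E.adj_b x)
  have hab : ∀ x : M, |θ s(x, E.a x) * θ s(x, E.b x)| < 1 := fun x => by
    rw [abs_mul]
    exact mul_lt_one_of_nonneg_of_lt_one_left (abs_nonneg _) (ha x) (hb x).le
  have hθ' : ∀ e ∈ E.H.edgeSet, |θ' e| ≤ 1 := fun e => by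
    induction e using Sym2.ind with
    | _ u w =>
    rintro (a | ⟨x, a⟩)
    · rw [k1 u w a]
      exact (hθ _ a).le
    · rw [a, k2]
      exact (hab x).le
  obtain ⟨μ, hμ⟩ := unique_ising hG hf fun e he => (hθ e he).le
  obtain ⟨μ', hμ'⟩ := unique_ising (E.tree hG) (fun _ => Set.toFinite _) hθ'
  refine ⟨E.tree hG, θ', μ, μ', k1, fun u w n x hx a b => ?_, hμ, hμ', fun Γ hΓ => ?_⟩
  · have k := E.ed_eq.2 (show u ≠ w ∧ G.Adj (⟨x, hx⟩ : M) u ∧ _ from ⟨n, a, b⟩)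
    rw [k, k2]
    rcases Sym2.eq_iff.1 k with k | k <;> rw [k.1, k.2]
    exact mul_comm _ _
  · rw [E.series hG (fun x => (ha x).le) (fun x => (hb x).le) hab k1 k2
      ((ising_iff hθ').1 ((hμ' _).2 rfl))
      ((ising_iff fun e he => (hθ e he).le).1 ((hμ _).2 rfl)) hΓ]
    refine iff_of_eq (congrArg (Factor E.H · μ') (Set.ext fun h => ?_))
    exact exists_congr fun g => and_congr_right fun hg =>
      ⟨fun ⟨_, k⟩ u => k ▸ rfl, fun k => ⟨(hΓ g hg).1, RelIso.ext fun u => Subtype.ext (k u).symm⟩⟩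

end Vale.Agent.N161X
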