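import Vale.Agent.N161X.Defs
import Mathlib.Probability.Independence.InfinitePi

/-! Transport along an isomorphism of graphs. -/

open MeasureTheory SimpleGraph

namespace Vale.Agent.N161X

theorem iso_meas {V W X : Type*} [MeasurableSpace X] (f : W → V) :
    Measurable fun (σ : V → X) (w : W) => σ (f w) :=
  measurable_pi_lambda _ fun _ => measurable_pi_apply _

theorem ising_iso {V W : Type*} {G : SimpleGraph V} {H : SimpleGraph W} (φ : H ≃g G)
    {θ : Sym2 V → ℝ} {μ : Measure (V → ℤˣ)} (h : Ising G θ μ) :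
    Ising H (fun e => θ (e.map φ)) (μ.map fun σ w => σ (φ w)) := by
  classical
  have hp := h.1
  refine ⟨Measure.isProbabilityMeasure_map (iso_meas _).aemeasurable, fun D hD η => ?_⟩
  have hD' : (G.induce (D.image φ : Set V)).Connected := by
    let f : H.induce (D : Set W) →g G.induce (D.image φ : Set V) :=
      ⟨fun v => ⟨φ v.1, Finset.mem_image_of_mem _ v.2⟩, fun h => φ.map_adj_iff.2 h⟩
    refine hD.map f ?_
    rintro ⟨p, hp⟩
    obtain ⟨v, hv, rfl⟩ := Finset.mem_image.1 hp
    exact ⟨⟨v, hv⟩, rfl⟩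
  have h1 := h.2 _ hD' fun v => η (φ.symm v)
  have hm : MeasurableSet {σ : W → ℤˣ | ∀ v ∈ D, σ v = η v} := by
    have : {σ : W → ℤˣ | ∀ v ∈ D, σ v = η v} = Set.pi D fun v => {η v} := rfl
    rw [this]
    exact MeasurableSet.pi D.countable_toSet fun v _ =>
      ⟨{(η v : ℤ)}, measurableSet_singleton _, Set.ext fun _ => Units.val_inj⟩
  rw [map_measureReal_apply (iso_meas _) hm]
  refine Eq.trans (congrArg _ (Set.ext fun x => ?_)) (h1.trans (congrArg
    (fun t => 1 / 2 * t) (Eq.symm ?_)))
  · simp only [Set.mem_preimage, Set.mem_ofPred_eq, Finset.forall_mem_image,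
      RelIso.symm_apply_apply]
  refine Finset.prod_nbij (Sym2.map φ) (fun e he => ?_)
    (fun a _ b _ h => Sym2.map.injective φ.injective h) (fun e he => ?_) fun e he => ?_
  · induction e using Sym2.ind with
    | _ u v =>
      simp only [Finset.mem_filter, Finset.mk_mem_sym2_iff, mem_edgeSet, Sym2.map_mk,
        φ.map_adj_iff] at he ⊢
      exact ⟨⟨Finset.mem_image_of_mem _ he.1.1, Finset.mem_image_of_mem _ he.1.2⟩, he.2⟩
  · induction e using Sym2.ind with
    | _ p q =>
      simp only [Finset.coe_filter, Finset.mk_mem_sym2_iff, mem_edgeSet, Set.mem_ofPred_eq] at he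
      obtain ⟨u, hu, rfl⟩ := Finset.mem_image.1 he.1.1
      obtain ⟨v, hv, rfl⟩ := Finset.mem_image.1 he.1.2
      refine ⟨s(u, v), ?_, rfl⟩
      simp only [Finset.coe_filter, Finset.mk_mem_sym2_iff, mem_edgeSet, Set.mem_ofPred_eq]
      exact ⟨⟨hu, hv⟩, φ.map_adj_iff.1 he.2⟩
  · induction e using Sym2.ind with
    | _ u v => simp only [Sym2.map_mk, RelIso.symm_apply_apply]

theorem factor_map {V W : Type*} {G : SimpleGraph V} {H : SimpleGraph W} (φ : H ≃g G)
    {μ : Measure (V → ℤˣ)} (h : Factor G Set.univ μ) :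
    Factor H Set.univ (μ.map fun σ w => σ (φ w)) := by
  obtain ⟨Φ, hΦ, hm, he⟩ := h
  have hL : MeasurePreserving (fun (x : W → unitInterval) (v : V) => x (φ.symm v))
      (Measure.infinitePi fun _ : W => volume) (Measure.infinitePi fun _ : V => volume) :=
    ⟨iso_meas _, Measure.map_infinitePi_infinitePi_of_inj
      (P := fun _ : W => (volume : Measure unitInterval)) φ.symm.injective⟩
  refine ⟨fun x w => Φ (fun v => x (φ.symm v)) (φ w), (iso_meas _).comp (hΦ.comp hL.measurable),
    ?_, fun g _ => ?_⟩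
  · rw [← hm, ← hL.map_eq, Measure.map_map hΦ hL.measurable,
      Measure.map_map (iso_meas _) (hΦ.comp hL.measurable)]
    rfl
  · filter_upwards [hL.quasiMeasurePreserving.ae (he (φ.symm.trans (g.trans φ)) trivial)] with x hx
    funext w
    have e : ∀ v, (φ.symm.trans (g.trans φ)).symm v = φ (g.symm (φ.symm v)) := fun _ => rfl
    simp only [e, RelIso.symm_apply_apply] at hx
    simpa only [RelIso.symm_apply_apply] using congrFun hx (φ w)

theorem factor_iso {V W : Type*} {G : SimpleGraph V} {H : SimpleGraph W} (φ : H ≃g G)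
    {μ : Measure (V → ℤˣ)} :
    Factor H Set.univ (μ.map fun σ w => σ (φ w)) ↔ Factor G Set.univ μ := by
  refine ⟨fun h => ?_, factor_map φ⟩
  have h1 := factor_map φ.symm h
  rw [Measure.map_map (iso_meas _) (iso_meas _)] at h1
  have e : ((fun (σ : W → ℤˣ) (v : V) => σ (φ.symm v)) ∘ fun (σ : V → ℤˣ) (w : W) => σ (φ w)) =
      id := funext fun σ => funext fun v => congrArg σ (φ.apply_symm_apply v)
  rwa [e, Measure.map_id] at h1

end Vale.Agent.N161X
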