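import Vale.Agent.N161.Final

/-!
# P161: series reduction of a tree along a set of vertices of degree two
-/

namespace Vale.Agent.N161X

open Vale.Agent.N161 SimpleGraph

universe u

variable {V : Type u} {G : SimpleGraph V} {M : Set V}

theorem nr (hG : G.IsAcyclic) {u v : V} (h : G.Adj u v) :
    ¬ (G.deleteEdges {s(u, v)}).Reachable u v :=
  isBridge_iff.1 (isAcyclic_iff_forall_isBridge.1 hG (e := s(u, v)) h)

theorem dl {u v : V} {e : Sym2 V} (h : G.Adj u v) (n : s(u, v) ≠ e) :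
    (G.deleteEdges {e}).Reachable u v :=
  Adj.reachable (by rw [deleteEdges_adj, Set.mem_singleton_iff]; exact ⟨h, n⟩)

/-- names for the two neighbours of each vertex of `M` -/
structure Ends (G : SimpleGraph V) (M : Set V) : Type u where
  a : M → {v // v ∉ M}
  b : M → {v // v ∉ M}
  ne : ∀ x, a x ≠ b x
  adj : ∀ (x : M) (v : V), G.Adj x v ↔ v = a x ∨ v = b x

theorem exists_ends (h2 : ∀ x ∈ M, (G.neighborSet x).ncard = 2)
    (hI : ∀ x ∈ M, ∀ y ∈ M, ¬ G.Adj x y) : Nonempty (Ends G M) := by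
  have : ∀ x : M, ∃ a b : {v // v ∉ M}, a ≠ b ∧ ∀ v : V, G.Adj x v ↔ v = a ∨ v = b := by
    intro x
    obtain ⟨a, b, n, e⟩ := Set.ncard_eq_two.1 (h2 x x.2)
    have k : ∀ v, G.Adj x v ↔ v = a ∨ v = b := fun v => by
      rw [← mem_neighborSet, e]; rfl
    exact ⟨⟨a, fun h => hI x x.2 a h ((k a).2 (.inl rfl))⟩,
      ⟨b, fun h => hI x x.2 b h ((k b).2 (.inr rfl))⟩, fun h => n (congrArg Subtype.val h), k⟩
  choose a b n k using this
  exact ⟨⟨a, b, n, k⟩⟩

theorem nm (x : M) (u : {v // v ∉ M}) : (x : V) ≠ u := fun h => u.2 (h ▸ x.2)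

namespace Ends

variable (E : Ends G M)

theorem adj_a (x : M) : G.Adj x (E.a x) := (E.adj x _).2 (.inl rfl)

theorem adj_b (x : M) : G.Adj x (E.b x) := (E.adj x _).2 (.inr rfl)

theorem ne' (x : M) : (E.a x : V) ≠ E.b x := fun h => E.ne x (Subtype.ext h)

/-- the new edge which replaces the vertex `x` -/
def ed (x : M) : Sym2 {v // v ∉ M} := s(E.a x, E.b x)

theorem mem_ed {x : M} {u : {v // v ∉ M}} : u ∈ E.ed x ↔ G.Adj x u := by
  rw [ed, Sym2.mem_iff, E.adj, Subtype.ext_iff, Subtype.ext_iff]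

theorem ed_eq {x : M} {u w : {v // v ∉ M}} :
    s(u, w) = E.ed x ↔ u ≠ w ∧ G.Adj x u ∧ G.Adj x w := by
  rw [← E.mem_ed, ← E.mem_ed]
  constructor
  · intro h
    refine ⟨?_, h ▸ Sym2.mem_mk_left _ _, h ▸ Sym2.mem_mk_right _ _⟩
    rintro rfl
    rcases Sym2.eq_iff.1 h with k | k
    · exact E.ne x (k.1.symm.trans k.2)
    · exact E.ne x (k.2.symm.trans k.1)
  · rintro ⟨n, h, k⟩
    exact ((Sym2.mem_and_mem_iff n).1 ⟨h, k⟩).symm

theorem ed_inj (hG : G.IsAcyclic) : Function.Injective E.ed := by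
  intro x y h
  by_contra n
  have n' : (y : V) ≠ x := fun k => n (Subtype.ext k.symm)
  obtain ⟨-, h1, h2⟩ := E.ed_eq.1 h
  refine nr hG (E.adj_a x) (((dl (E.adj_b x) ?_).trans (dl h2.symm ?_)).trans (dl h1 ?_))
  · exact fun k => E.ne' x (Sym2.congr_right.1 k).symm
  · intro k
    rcases Sym2.eq_iff.1 k with k | k
    · exact nm x _ k.1.symm
    · exact n' k.2
  · exact fun k => n' (Sym2.congr_left.1 k)

theorem not_adj (hG : G.IsAcyclic) {x : M} {u w : {v // v ∉ M}} (h : s(u, w) = E.ed x) :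
    ¬ G.Adj u w := by
  intro k
  obtain ⟨-, h1, h2⟩ := E.ed_eq.1 h
  refine nr hG k ((dl h1.symm ?_).trans (dl h2 ?_))
  · exact fun f => nm x _ (Sym2.congr_right.1 f)
  · exact fun f => nm x _ (Sym2.congr_left.1 f)

/-- the reduced graph -/
def H : SimpleGraph {v // v ∉ M} where
  Adj u w := G.Adj u w ∨ ∃ x, s(u, w) = E.ed x
  symm := ⟨fun _ _ h => h.imp Adj.symm fun k => k.imp fun _ e => Sym2.eq_swap.trans e⟩
  loopless := ⟨fun _ h => h.elim (fun k => k.ne rfl) fun ⟨_, k⟩ => (E.ed_eq.1 k).1 rfl⟩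

theorem ed_mem (x : M) : E.ed x ∈ E.H.edgeSet := .inr ⟨x, rfl⟩

open Classical in
/-- a projection to the reduced graph -/
noncomputable def pr (v : V) : {v // v ∉ M} := if h : v ∈ M then E.a ⟨v, h⟩ else ⟨v, h⟩

theorem pr_val (u : {v // v ∉ M}) : E.pr u = u := dif_neg u.2

theorem pr_mid (x : M) : E.pr x = E.a x := dif_pos x.2

theorem pr_step (x : M) {v : V} (h : G.Adj x v) : E.H.Reachable (E.pr x) (E.pr v) := by
  rw [E.pr_mid]
  rcases (E.adj x v).1 h with rfl | rfl <;> rw [E.pr_val]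
  exact Adj.reachable (.inr ⟨x, rfl⟩)

theorem step {e : Sym2 V} {y z : {v // v ∉ M}} (h : E.H.Adj y z)
    (h1 : G.Adj y z → s((y : V), (z : V)) ≠ e)
    (h2 : ∀ x : M, s(y, z) = E.ed x → (x : V) ∉ e) : (G.deleteEdges {e}).Reachable y z := by
  rcases h with h | ⟨x, h⟩
  · exact dl h (h1 h)
  · obtain ⟨-, a, b⟩ := E.ed_eq.1 h
    exact (dl (e := e) a.symm fun k => h2 x h (k ▸ Sym2.mem_mk_right _ _)).trans
      (dl (e := e) b fun k => h2 x h (k ▸ Sym2.mem_mk_left _ _))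

theorem tree (hG : G.IsTree) : E.H.IsTree := by
  refine ⟨?_, isAcyclic_iff_forall_isBridge.2 ?_⟩
  · have a : ∀ u v, G.Reachable u v → E.H.Reachable (E.pr u) (E.pr v) := by
      rintro u v ⟨p⟩
      induction p with
      | nil => exact .rfl
      | @cons u v w h _ ih =>
        refine Reachable.trans ?_ ih
        by_cases hu : u ∈ M
        · exact E.pr_step ⟨u, hu⟩ h
        by_cases hv : v ∈ M
        · exact (E.pr_step ⟨v, hv⟩ h.symm).symm
        rw [E.pr_val ⟨u, hu⟩, E.pr_val ⟨v, hv⟩]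
        exact Adj.reachable (.inl h)
    obtain ⟨o⟩ := hG.connected.nonempty
    have : Nonempty {v // v ∉ M} := ⟨E.pr o⟩
    refine ⟨fun u v => ?_⟩
    have := a u v (hG.connected.preconnected _ _)
    rwa [E.pr_val, E.pr_val] at this
  intro e
  induction e using Sym2.ind with
  | _ u w =>
  rintro (h | ⟨x, h⟩)
  · refine bridge_of_inv (fun y => (G.deleteEdges {s((u : V), (w : V))}).Reachable u y) .rfl
      (nr hG.isAcyclic h) fun y z c n hy => hy.trans (E.step c (fun _ f => n ?_) fun x _ f => ?_)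
    · exact Sym2.map.injective Subtype.val_injective f
    · rcases Sym2.mem_iff.1 f with f | f <;> exact nm x _ f
  · obtain ⟨n0, h1, h2⟩ := E.ed_eq.1 h
    refine bridge_of_inv (fun y => (G.deleteEdges {s((x : V), (w : V))}).Reachable u y) .rfl
      (fun k => nr hG.isAcyclic h2 ((dl h1 fun f => n0 ?_).trans k))
      fun y z c n hy => hy.trans (E.step c (fun _ f => ?_) fun x' k f => ?_)
    · exact Subtype.ext (Sym2.congr_right.1 f)
    · rcases Sym2.eq_iff.1 f with f | f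
      · exact nm x _ f.1.symm
      · exact nm x _ f.2.symm
    · rcases Sym2.mem_iff.1 f with f | f
      · exact n (k.trans ((congrArg E.ed (Subtype.ext f)).trans h.symm))
      · exact nm x' _ f

theorem encard_nb (hG : G.IsAcyclic) (u : {v // v ∉ M}) :
    (E.H.neighborSet u).encard = (G.neighborSet u).encard := by
  classical
  have ex : ∀ v : G.neighborSet u, ∃ w : E.H.neighborSet u,
      (w.1 : V) = v ∨ ∃ x : M, (x : V) = v ∧ s(u, w.1) = E.ed x := by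
    rintro ⟨v, hv⟩
    by_cases h : v ∈ M
    · obtain ⟨w, hw⟩ := Sym2.mem_iff_exists.1 (E.mem_ed.2 (show G.Adj (⟨v, h⟩ : M) u from hv.symm))
      exact ⟨⟨w, .inr ⟨_, hw.symm⟩⟩, .inr ⟨⟨v, h⟩, rfl, hw.symm⟩⟩
    · exact ⟨⟨⟨v, h⟩, .inl hv⟩, .inl rfl⟩
  choose f hf using ex
  refine (Set.encard_congr (Equiv.ofBijective f ⟨fun v v' h => Subtype.ext ?_, ?_⟩)).symm
  · rcases hf v with a | ⟨x, a, b⟩ <;> rcases hf v' with c | ⟨y, c, e⟩
    · rw [← a, ← c, h]
    · exact absurd (show G.Adj u (f v').1 by rw [← h, a]; exact v.2) (E.not_adj hG e)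
    · exact absurd (show G.Adj u (f v).1 by rw [h, c]; exact v'.2) (E.not_adj hG b)
    · rw [← a, ← c, E.ed_inj hG (b.symm.trans (h ▸ e))]
  · rintro ⟨w, h | ⟨x, h⟩⟩
    · refine ⟨⟨w, h⟩, Subtype.ext ?_⟩
      rcases hf ⟨w, h⟩ with a | ⟨x, a, -⟩
      · exact Subtype.ext a
      · exact absurd a (nm x w)
    · have k : G.Adj u x := (E.ed_eq.1 h).2.1.symm
      refine ⟨⟨x, k⟩, Subtype.ext ?_⟩
      rcases hf ⟨x, k⟩ with a | ⟨y, a, b⟩
      · exact absurd a.symm (nm x _)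
      · rw [Subtype.ext a, ← h] at b
        exact Sym2.congr_right.1 b

/-- the restriction of an automorphism which preserves `M` -/
def res (g : G ≃g G) (hg : ∀ v, g v ∈ M ↔ v ∈ M) : E.H ≃g E.H where
  toEquiv := g.toEquiv.subtypeEquiv fun v => (not_congr (hg v)).symm
  map_rel_iff' := by
    intro u w
    refine or_congr g.map_adj_iff ⟨?_, ?_⟩
    · rintro ⟨x, h⟩
      obtain ⟨n, a, b⟩ := E.ed_eq.1 h
      refine ⟨⟨g.symm x, (hg _).1 (by rw [g.apply_symm_apply]; exact x.2)⟩,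
        E.ed_eq.2 ⟨fun k => n (k ▸ rfl), g.map_adj_iff.1 ?_, g.map_adj_iff.1 ?_⟩⟩ <;>
      rw [g.apply_symm_apply]
      exacts [a, b]
    · rintro ⟨x, h⟩
      obtain ⟨n, a, b⟩ := E.ed_eq.1 h
      exact ⟨⟨g x, (hg _).2 x.2⟩, E.ed_eq.2 ⟨fun k => n (Equiv.injective _ k),
        g.map_adj_iff.2 a, g.map_adj_iff.2 b⟩⟩

theorem ed_res (g : G ≃g G) (hg : ∀ v, g v ∈ M ↔ v ∈ M) (x : M) :
    s(E.res g hg (E.a x), E.res g hg (E.b x)) = E.ed ⟨g x, (hg _).2 x.2⟩ :=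
  E.ed_eq.2 ⟨fun k => E.ne x ((E.res g hg).injective k), g.map_adj_iff.2 (E.adj_a x),
    g.map_adj_iff.2 (E.adj_b x)⟩

/-- an automorphism of the reduced tree which preserves the old edges extends -/
theorem exists_ext (hG : G.IsAcyclic) (h : E.H ≃g E.H)
    (hh : ∀ u w : {v // v ∉ M}, G.Adj (h u) (h w) ↔ G.Adj u w) :
    ∃ (g : G ≃g G) (hg : ∀ v, g v ∈ M ↔ v ∈ M), E.res g hg = h := by
  classical
  have ex : ∀ (h : E.H ≃g E.H), (∀ u w : {v // v ∉ M}, G.Adj (h u) (h w) ↔ G.Adj u w) →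
      ∀ x : M, ∃ y, E.ed y = (E.ed x).map h := fun h hh x =>
    ((h.map_adj_iff.2 (show E.H.Adj (E.a x) (E.b x) from .inr ⟨x, rfl⟩)).resolve_left
      fun k => E.not_adj hG rfl ((hh _ _).1 k)).imp fun _ k => k.symm
  choose m hm using ex h hh
  choose n hn using ex h.symm fun u w => by rw [← hh, h.apply_symm_apply, h.apply_symm_apply]
  let e : M ≃ M := ⟨m, n, fun x => E.ed_inj hG (by rw [hn, hm, Sym2.map_map]; simp [ed]),
    fun x => E.ed_inj hG (by rw [hm, hn, Sym2.map_map]; simp [ed])⟩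
  let g : V ≃ V := Equiv.Perm.subtypeCongr e h.toEquiv
  have g1 : ∀ x : M, g x = m x := fun x => Equiv.Perm.subtypeCongr.left_apply_subtype _ _ x
  have g2 : ∀ u : {v // v ∉ M}, g u = h u := fun u =>
    Equiv.Perm.subtypeCongr.right_apply_subtype _ _ u
  have k : ∀ (x : M) (u : {v // v ∉ M}), G.Adj (g x) (g u) ↔ G.Adj x u := fun x u => by
    rw [g1, g2, ← E.mem_ed, ← E.mem_ed, hm, Sym2.mem_map]
    exact ⟨fun ⟨_, a, b⟩ => h.injective b ▸ a, fun a => ⟨u, a, rfl⟩⟩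
  have mm : ∀ x y : M, ¬ G.Adj x y := fun x y a => by
    rcases (E.adj x y).1 a with f | f <;> exact nm y _ f
  refine ⟨⟨g, ?_⟩, fun v => ?_, RelIso.ext fun u => Subtype.ext (g2 u)⟩
  · intro u v
    by_cases hu : u ∈ M <;> by_cases hv : v ∈ M
    · refine iff_of_false ?_ (mm ⟨u, hu⟩ ⟨v, hv⟩)
      rw [g1 ⟨u, hu⟩, g1 ⟨v, hv⟩]
      exact mm _ _
    · exact k ⟨u, hu⟩ ⟨v, hv⟩
    · rw [adj_comm, adj_comm G u]
      exact k ⟨v, hv⟩ ⟨u, hu⟩
    · rw [g2 ⟨u, hu⟩, g2 ⟨v, hv⟩]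
      exact hh _ _
  · show g v ∈ M ↔ v ∈ M
    by_cases hv : v ∈ M
    · exact iff_of_true (by rw [g1 ⟨v, hv⟩]; exact (m _).2) hv
    · exact iff_of_false (by rw [g2 ⟨v, hv⟩]; exact (h _).2) hv

theorem ncard_nb (hG : G.IsAcyclic) (u : {v // v ∉ M}) :
    (E.H.neighborSet u).ncard = (G.neighborSet u).ncard := by
  rw [Set.ncard_def, E.encard_nb hG, Set.ncard_def]

end Ends

end Vale.Agent.N161X
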