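import Mathlib.MeasureTheory.Integral.IntervalIntegral.Periodic
import Mathlib.Probability.ProductMeasure
import Mathlib.MeasureTheory.Constructions.UnitInterval

/-! Uniform labels: from the circle to the interval, and gluing two families of labels. -/

open MeasureTheory

namespace Vale.Agent.N161X

theorem exists_rho : ∃ ρ : UnitAddCircle → unitInterval, Measurable ρ ∧
    Measure.map ρ volume = volume := by
  have h1 := AddCircle.measurePreserving_equivIoc (1 : ℝ) (a := 0)
  have h2 : MeasurePreserving (Subtype.val : Set.Ioc (0 : ℝ) (0 + 1) → ℝ)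
      (Measure.comap Subtype.val volume) (volume.restrict (Set.Ioc (0 : ℝ) (0 + 1))) :=
    measurePreserving_subtype_coe measurableSet_Ioc
  have hm : Measurable (Set.projIcc (0 : ℝ) 1 zero_le_one) := continuous_projIcc.measurable
  have h3 : MeasurePreserving (Set.projIcc (0 : ℝ) 1 zero_le_one)
      (volume.restrict (Set.Ioc (0 : ℝ) (0 + 1))) (volume : Measure unitInterval) := by
    refine ⟨hm, ?_⟩
    rw [zero_add, Measure.restrict_congr_set Ioc_ae_eq_Icc,
      ← unitInterval.measurePreserving_coe.map_eq, Measure.map_map hm measurable_subtype_coe]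
    have : Set.projIcc (0 : ℝ) 1 zero_le_one ∘ (Subtype.val : unitInterval → ℝ) = id :=
      funext fun x => Set.projIcc_val _ x
    rw [this, Measure.map_id]
  have h := h3.comp (h2.comp h1)
  exact ⟨_, h.measurable, h.map_eq⟩

open Classical in
theorem mp_glue {V : Type*} (M : Set V) :
    MeasurePreserving
      (fun (q : ({v // v ∉ M} → unitInterval) × (M → unitInterval)) (v : V) =>
        if h : v ∈ M then q.2 ⟨v, h⟩ else q.1 ⟨v, h⟩)
      ((Measure.infinitePi fun _ : {v // v ∉ M} => (volume : Measure unitInterval)).prod
        (Measure.infinitePi fun _ : M => (volume : Measure unitInterval)))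
      (Measure.infinitePi fun _ : V => (volume : Measure unitInterval)) := by
  have hm : Measurable (fun (q : ({v // v ∉ M} → unitInterval) × (M → unitInterval)) (v : V) =>
      if h : v ∈ M then q.2 ⟨v, h⟩ else q.1 ⟨v, h⟩) := by
    refine measurable_pi_lambda _ fun v => ?_
    by_cases h : v ∈ M
    · simp only [dif_pos h]
      exact (measurable_pi_apply _).comp measurable_snd
    · simp only [dif_neg h]
      exact (measurable_pi_apply _).comp measurable_fst
  refine ⟨hm, Measure.eq_infinitePi _ fun s t ht => ?_⟩
  rw [Measure.map_apply hm (MeasurableSet.pi s.countable_toSet fun i _ => ht i)]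
  have : (fun (q : ({v // v ∉ M} → unitInterval) × (M → unitInterval)) (v : V) =>
      if h : v ∈ M then q.2 ⟨v, h⟩ else q.1 ⟨v, h⟩) ⁻¹' Set.pi s t =
      (Set.pi (s.subtype fun v => v ∉ M) fun v : {v // v ∉ M} => t v) ×ˢ
        (Set.pi (s.subtype fun v => v ∈ M) fun v : M => t v) := by
    ext q
    simp only [Set.mem_preimage, Set.mem_pi, Finset.mem_coe, Set.mem_prod, Finset.mem_subtype,
      Subtype.forall]
    constructor
    · intro h
      refine ⟨fun v hv hs => ?_, fun v hv hs => ?_⟩
      · simpa only [dif_neg hv] using h v hs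
      · simpa only [dif_pos hv] using h v hs
    · intro h v hs
      by_cases hv : v ∈ M
      · simpa only [dif_pos hv] using h.2 v hv hs
      · simpa only [dif_neg hv] using h.1 v hv hs
  rw [this, Measure.prod_prod,
    Measure.infinitePi_pi _ fun (i : {v // v ∉ M}) _ => ht i.1,
    Measure.infinitePi_pi _ fun (i : M) _ => ht i.1,
    Finset.prod_subtype_eq_prod_filter (fun v => (volume : Measure unitInterval) (t v)),
    Finset.prod_subtype_eq_prod_filter (fun v => (volume : Measure unitInterval) (t v)), mul_comm,
    Finset.prod_filter_mul_prod_filter_not]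

end Vale.Agent.N161X
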