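import Mathlib.Combinatorics.SimpleGraph.Acyclic
import Mathlib.Data.Set.Card

/-! The subdivision of a tree. -/

namespace Vale.Agent.N161X

open SimpleGraph Sum

theorem sub_bridge {V : Type*} {G : SimpleGraph V} {x y : V} (P : V → Prop) (hx : P x)
    (hy : ¬ P y) (h : ∀ a b, G.Adj a b → s(a, b) ≠ s(x, y) → P a → P b) : G.IsBridge s(x, y) := by
  rw [isBridge_iff]
  rintro ⟨p⟩
  have : ∀ a b (_ : (G.deleteEdges {s(x, y)}).Walk a b), P a → P b := by
    intro a b p
    induction p with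
    | nil => exact id
    | cons e _ ih =>
      rw [deleteEdges_adj, Set.mem_singleton_iff] at e
      exact fun k => ih (h _ _ e.1 e.2 k)
  exact hy (this _ _ p hx)

/-- The subdivision of a graph. -/
def subG {W : Type*} (H : SimpleGraph W) : SimpleGraph (W ⊕ H.edgeSet) where
  Adj a b := ∃ (u : W) (e : H.edgeSet), u ∈ e.1 ∧ (a = inl u ∧ b = inr e ∨ a = inr e ∧ b = inl u)
  symm := ⟨fun _ _ ⟨u, e, h, k⟩ => ⟨u, e, h, k.symm.imp And.symm And.symm⟩⟩
  loopless := ⟨fun a ⟨u, e, _, k⟩ => by rcases k with ⟨rfl, k⟩ | ⟨rfl, k⟩ <;> cases k⟩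

variable {W : Type*} {H : SimpleGraph W}

theorem sub_adj {u : W} {e : H.edgeSet} (h : u ∈ e.1) : (subG H).Adj (inl u) (inr e) :=
  ⟨u, e, h, Or.inl ⟨rfl, rfl⟩⟩

theorem sub_inr (e : H.edgeSet) : ((subG H).neighborSet (inr e)).ncard = 2 := by
  obtain ⟨e, he⟩ := e
  induction e with | h u w
  have : (subG H).neighborSet (inr ⟨s(u, w), he⟩) = {inl u, inl w} := by
    ext b
    constructor
    · rintro ⟨v, f, h, ⟨k, -⟩ | ⟨k, rfl⟩⟩
      · cases k
      · obtain rfl := inr_injective k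
        rcases Sym2.mem_iff.1 h with rfl | rfl <;> simp
    · rintro (rfl | rfl)
      · exact (sub_adj (Sym2.mem_mk_left _ _)).symm
      · exact (sub_adj (Sym2.mem_mk_right _ _)).symm
  rw [this]
  exact Set.ncard_pair fun k => (H.mem_edgeSet.1 he).ne (inl_injective k)

theorem sub_inl (v : W) : ((subG H).neighborSet (inl v)).ncard = (H.neighborSet v).ncard := by
  symm
  refine Set.ncard_congr (fun w hw => inr ⟨s(v, w), hw⟩) ?_ ?_ ?_
  · exact fun w hw => sub_adj (Sym2.mem_mk_left _ _)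
  · intro a b ha hb k
    exact Sym2.congr_right.1 (congrArg Subtype.val (inr_injective k))
  · rintro b ⟨u, ⟨f, hf⟩, h, ⟨k, rfl⟩ | ⟨k, -⟩⟩
    · obtain rfl := inl_injective k
      obtain ⟨w, rfl⟩ := Sym2.mem_iff_exists.1 h
      exact ⟨w, hf, rfl⟩
    · cases k

theorem sub_tree (hH : H.IsTree) : (subG H).IsTree := by
  refine ⟨?_, isAcyclic_iff_forall_isBridge.2 ?_⟩
  · have a : ∀ u v : W, (subG H).Reachable (inl u) (inl v) := by
      intro u v
      obtain ⟨p⟩ := hH.connected.preconnected u v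
      induction p with
      | nil => rfl
      | @cons x y z e _ ih =>
        exact ((sub_adj (e := ⟨s(x, y), e⟩) (Sym2.mem_mk_left _ _)).reachable.trans
          (sub_adj (e := ⟨s(x, y), e⟩) (Sym2.mem_mk_right _ _)).symm.reachable).trans ih
    have b : ∀ x : W ⊕ H.edgeSet, ∃ u, (subG H).Reachable (inl u) x := by
      rintro (u | ⟨e, he⟩)
      · exact ⟨u, .rfl⟩
      · induction e with | h u w
        exact ⟨u, (sub_adj (Sym2.mem_mk_left _ _)).reachable⟩
    obtain ⟨u0⟩ := hH.connected.nonempty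
    have : Nonempty (W ⊕ H.edgeSet) := ⟨inl u0⟩
    refine ⟨fun x y => ?_⟩
    obtain ⟨u, hu⟩ := b x
    obtain ⟨v, hv⟩ := b y
    exact (hu.symm.trans (a u v)).trans hv
  · have key : ∀ (u : W) (e : H.edgeSet), u ∈ e.1 → (subG H).IsBridge s(inr e, inl u) := by
      rintro u ⟨e, he⟩ h
      obtain ⟨w, rfl⟩ := Sym2.mem_iff_exists.1 h
      have hb := isAcyclic_iff_forall_isBridge.1 hH.isAcyclic he
      rw [isBridge_iff] at hb
      refine sub_bridge (Sum.elim (fun v => (H.deleteEdges {s(u, w)}).Reachable w v)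
        fun f => f.1 = s(u, w) ∨ ∀ v ∈ f.1, (H.deleteEdges {s(u, w)}).Reachable w v)
        (Or.inl rfl) (fun k => hb (Reachable.symm k)) ?_
      rintro a b ⟨v, ⟨f, hf⟩, hv, ⟨rfl, rfl⟩ | ⟨rfl, rfl⟩⟩ n k
      · obtain ⟨v', rfl⟩ := Sym2.mem_iff_exists.1 hv
        refine or_iff_not_imp_left.2 fun c x hx => ?_
        rcases Sym2.mem_iff.1 hx with rfl | rfl
        · exact k
        · exact Reachable.trans k (Adj.reachable (deleteEdges_adj.2 ⟨hf, c⟩))
      · rcases k with k | k
        · obtain rfl : f = s(u, w) := k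
          rcases Sym2.mem_iff.1 hv with rfl | rfl
          · exact absurd rfl n
          · exact Reachable.rfl
        · exact k v hv
    intro e
    induction e with | h a b
    rintro ⟨u, e, h, ⟨rfl, rfl⟩ | ⟨rfl, rfl⟩⟩
    · rw [Sym2.eq_swap]
      exact key u e h
    · exact key u e h

end Vale.Agent.N161X
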