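import Vale.Agent.N161X.Defs
import Vale.Agent.N161X.Fill
import Vale.Agent.N161X.Rho

/-!
# P161: the series law for factors of IID
-/

open MeasureTheory Filter

namespace Vale.Agent.N161X

open Vale.Agent.P161 Vale.Agent.P161.H391 Vale.Agent.N161 SimpleGraph

universe u

variable {V : Type u} {G : SimpleGraph V} {M : Set V}

theorem exists_ising (hG : G.IsTree) {J : Sym2 V → ℝ} (hJ : ∀ e ∈ G.edgeSet, |J e| ≤ 1) :
    ∃ μ, IsIsing G J μ := by
  classical
  obtain ⟨μ, hμ⟩ := exists_isFreeIsing' hG (θ := 1) (by norm_num) le_rfl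
  have := hμ.isProb
  obtain ⟨κ, hκ, hκl⟩ := exists_kappa
  obtain ⟨s, hs, hse⟩ := exists_gauge hG (fun y e => cs (J e) (ew κ y e))
    fun e => (measurable_cs _).comp (measurable_ew hκ e)
  let T : (V → unitInterval) × (V → ℤˣ) → V → ℤˣ := fun q => tw (s q.1) q.2
  have hT : Measurable T := measurable_pi_lambda _ fun v =>
    ((measurable_pi_apply v).comp (hs.comp measurable_fst)).mul
      ((measurable_pi_apply v).comp measurable_snd)
  refine ⟨((lab V).prod μ).map T, Measure.isProbabilityMeasure_map hT.aemeasurable,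
    fun D hD η => ?_⟩
  set F := D.sym2.filter (fun e => e ∈ G.edgeSet) with hF
  have hFe : ∀ e ∈ F, e ∈ G.edgeSet := fun e he => (Finset.mem_filter.1 he).2
  let h : Sym2 V → UnitAddCircle → ℝ := fun e z =>
    (1 + (((e.map η).mul : ℤ) : ℝ) * ((cs (J e) z : ℤ) : ℝ)) / 2
  have hm : ∀ e, Measurable (h e) := fun e =>
    (measurable_of_countable fun a : ℤˣ =>
      (1 + (((e.map η).mul : ℤ) : ℝ) * ((a : ℤ) : ℝ)) / 2).comp (measurable_cs _)
  have hb : ∀ e z, 0 ≤ h e z ∧ h e z ≤ 1 := by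
    intro e z
    simp only [h]
    rcases Int.units_eq_one_or (e.map η).mul with a | a <;>
      rcases Int.units_eq_one_or (cs (J e) z) with b | b <;> rw [a, b] <;> norm_num
  have e2 : ∀ y, μ (Prod.mk y ⁻¹' (T ⁻¹' {σ | ∀ v ∈ D, σ v = η v})) =
      ENNReal.ofReal (1 / 2 * ∏ e ∈ F, h e (ew κ y e)) := by
    intro y
    have e3 : Prod.mk y ⁻¹' (T ⁻¹' {σ | ∀ v ∈ D, σ v = η v}) =
        {σ | ∀ v ∈ D, σ v = tw (s y) η v} := by
      ext ω
      simp only [Set.mem_preimage, Set.mem_ofPred_eq, T, tw]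
      refine forall₂_congr fun v _ => ⟨fun k => ?_, fun k => ?_⟩
      · rw [← k, ← mul_assoc, Int.units_mul_self, one_mul]
      · rw [k, ← mul_assoc, Int.units_mul_self, one_mul]
    rw [e3, hμ.marginal D hD]
    refine congrArg (fun t => ENNReal.ofReal (1 / 2 * t)) (Finset.prod_congr rfl fun e he => ?_)
    have he' := hFe e he
    induction e using Sym2.ind with
    | _ u v =>
      simp only [h, ← hse y u v he', Sym2.map_mk, Sym2.mul_mk, tw]
      push_cast
      ring
  have mI : Measurable fun y : V → unitInterval => 1 / 2 * ∏ e ∈ F, h e (ew κ y e) :=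
    (Finset.measurable_fun_prod _ fun e _ => (hm e).comp (measurable_ew hκ e)).const_mul _
  have iI : Integrable (fun y : V → unitInterval => 1 / 2 * ∏ e ∈ F, h e (ew κ y e)) (lab V) := by
    refine Integrable.of_bound mI.aestronglyMeasurable 1 (Eventually.of_forall fun y => ?_)
    have a := Finset.prod_nonneg fun e (_ : e ∈ F) => (hb e (ew κ y e)).1
    have b := Finset.prod_le_one (fun e (_ : e ∈ F) => (hb e (ew κ y e)).1)
      fun e _ => (hb e (ew κ y e)).2
    rw [Real.norm_eq_abs, abs_le]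
    constructor <;> linarith
  rw [Measure.map_apply hT (measurableSet_cyl _ _),
    Measure.prod_apply (hT (measurableSet_cyl _ _))]
  simp only [e2]
  rw [← ofReal_integral_eq_lintegral_ofReal iI (Eventually.of_forall fun y =>
    mul_nonneg (by norm_num) (Finset.prod_nonneg fun e _ => (hb e _).1)), integral_const_mul,
    integral_edges hG hκ hκl h hm F hFe fun e _ z => abs_le.2 ⟨by linarith [(hb e z).1], (hb e z).2⟩]
  refine congrArg (fun t => ENNReal.ofReal (1 / 2 * t)) (Finset.prod_congr rfl fun e he => ?_)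
  simp only [h]
  rw [integral_cs (hJ e (hFe e he)), mul_comm]

theorem ising_iff {θ : Sym2 V → ℝ} (h : ∀ e ∈ G.edgeSet, |θ e| ≤ 1) {μ : Measure (V → ℤˣ)} :
    Ising G θ μ ↔ IsIsing G θ μ := by
  classical
  refine and_congr_right fun _ => forall₃_congr fun D _ η => ?_
  rw [← ofReal_measureReal, ENNReal.ofReal_eq_ofReal_iff measureReal_nonneg
    (mul_nonneg (by norm_num) (Finset.prod_nonneg fun e he =>
      div_nonneg (un_nonneg (h e (Finset.mem_filter.1 he).2) _) zero_le_two))]

theorem mp_split (M : Set V) : MeasurePreserving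
    (fun x : V → unitInterval => (fun u : {v // v ∉ M} => x u, fun u : M => x u))
    (lab V) ((lab {v // v ∉ M}).prod (lab M)) := by
  have m : Measurable fun x : V → unitInterval =>
      (fun u : {v // v ∉ M} => x u, fun u : M => x u) :=
    (measurable_pi_lambda _ fun _ => measurable_pi_apply _).prodMk
      (measurable_pi_lambda _ fun _ => measurable_pi_apply _)
  refine ⟨m, ?_⟩
  rw [show lab V = _ from (mp_glue M).map_eq.symm, Measure.map_map m (mp_glue M).measurable]
  convert Measure.map_id using 2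
  funext q
  exact Prod.ext (funext fun u => dif_neg u.2) (funext fun u => dif_pos u.2)

namespace Ends

variable (E : Ends G M)

theorem mp_edge (hG : G.IsTree) {κ : unitInterval → UnitAddCircle} (hκ : Measurable κ)
    (hl : Measure.map κ volume = volume) {ρ : UnitAddCircle → unitInterval} (hρ : Measurable ρ)
    (hr : Measure.map ρ volume = volume) :
    MeasurePreserving (fun y (x : M) => ρ (ew κ y (E.ed x))) (lab {v // v ∉ M}) (lab M) := by
  classical
  have inj := E.ed_inj hG.isAcyclic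
  have m : Measurable fun (y : {v // v ∉ M} → unitInterval) (x : M) => ρ (ew κ y (E.ed x)) :=
    measurable_pi_lambda _ fun x => hρ.comp (measurable_ew hκ _)
  refine ⟨m, Measure.eq_infinitePi _ fun s t ht => ?_⟩
  have ms := MeasurableSet.pi s.countable_toSet fun i _ => ht i
  let T : Sym2 {v // v ∉ M} → Set unitInterval := Function.extend E.ed t fun _ => Set.univ
  have hT : ∀ e, MeasurableSet (T e) := fun e => by
    simp only [T, Function.extend_def]
    split_ifs
    exacts [ht _, .univ]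
  have k := integral_edges (E.tree hG) hκ hl (fun e => (ρ ⁻¹' T e).indicator 1)
    (fun e => measurable_one.indicator (hρ (hT e))) (s.image E.ed)
    (fun e he => by obtain ⟨x, -, rfl⟩ := Finset.mem_image.1 he; exact E.ed_mem x)
    (fun e _ a => by by_cases c : a ∈ ρ ⁻¹' T e <;> simp [c])
  simp only [Finset.prod_image inj.injOn, T, inj.extend_apply] at k
  have e1 : ∀ y : {v // v ∉ M} → unitInterval,
      ∏ x ∈ s, (ρ ⁻¹' t x).indicator (1 : UnitAddCircle → ℝ) (ew κ y (E.ed x)) =
      ((fun y (x : M) => ρ (ew κ y (E.ed x))) ⁻¹' Set.pi s t).indicator 1 y := by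
    intro y
    by_cases c : y ∈ (fun y (x : M) => ρ (ew κ y (E.ed x))) ⁻¹' Set.pi s t
    · rw [Set.indicator_of_mem c]
      exact Finset.prod_eq_one fun x hx => Set.indicator_of_mem (s := ρ ⁻¹' t x) (c x hx) _
    · rw [Set.indicator_of_notMem c]
      obtain ⟨x, hx⟩ := not_forall.1 c
      obtain ⟨hx, n⟩ := Classical.not_imp.1 hx
      exact Finset.prod_eq_zero hx (Set.indicator_of_notMem (s := ρ ⁻¹' t x) n _)
  simp only [e1, integral_indicator_one (m ms), fun x => integral_indicator_one (μ := volume)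
    (hρ (ht x))] at k
  rw [Measure.map_apply m ms, ← ofReal_measureReal, k,
    ENNReal.ofReal_prod_of_nonneg fun _ _ => measureReal_nonneg]
  refine Finset.prod_congr rfl fun x _ => ?_
  have : IsProbabilityMeasure (volume : Measure UnitAddCircle) := ⟨UnitAddCircle.measure_univ⟩
  rw [ofReal_measureReal, ← Measure.map_apply hρ (ht x), hr]

/-- independent labels on all vertices from labels on the vertices of the reduced tree -/
theorem exists_labels (hG : G.IsTree) :
    ∃ L : ({v // v ∉ M} → unitInterval) → V → unitInterval,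
      MeasurePreserving L (lab _) (lab V) ∧ ∀ (g : G ≃g G) (hg : ∀ v, g v ∈ M ↔ v ∈ M) y,
        L (fun u => y ((E.res g hg).symm u)) = fun v => L y (g.symm v) := by
  classical
  obtain ⟨κ, hκ, hl⟩ := exists_kappa
  obtain ⟨ρ, hρ, hr⟩ := exists_rho
  obtain ⟨T, hT, hTg⟩ := exists_three E.H
  have a : MeasurePreserving (fun (ω : {v // v ∉ M} × ℕ → unitInterval) v => ω (v, 0))
      (noise _) (lab _) := ⟨measurable_pi_lambda _ fun _ => measurable_pi_apply _,
    Measure.map_infinitePi_infinitePi_of_inj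
      (P := fun _ : {v // v ∉ M} × ℕ => (volume : Measure unitInterval))
      (f := fun v => (v, 0)) fun _ _ h => (Prod.mk.inj h).1⟩
  have b := ((E.mp_edge hG hκ hl hρ hr).comp a).comp
    (measurePreserving_fst (ν := noise {v // v ∉ M}))
  refine ⟨_, ((mp_glue M).comp ((MeasurePreserving.id _).prod b)).comp hT, fun g hg y => ?_⟩
  funext v
  have hg' : ∀ v, g.symm v ∈ M ↔ v ∈ M := fun v => by rw [← hg, g.apply_symm_apply]
  have e : T (fun u => y ((E.res g hg).symm u)) = _ := hTg (E.res g hg) y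
  simp only [Function.comp, e, Prod.map]
  by_cases h : v ∈ M
  · rw [dif_pos h, dif_pos ((hg' v).2 h), ← E.ed_res g.symm hg' ⟨v, h⟩]
    rfl
  · rw [dif_neg h, dif_neg fun k => h ((hg' v).1 k)]
    rfl

/-- the series law -/
theorem series (hG : G.IsTree) [G.LocallyFinite] {θ : Sym2 V → ℝ}
    {θ' : Sym2 {v // v ∉ M} → ℝ} (ha : ∀ x : M, |θ s(x, E.a x)| ≤ 1)
    (hb : ∀ x : M, |θ s(x, E.b x)| ≤ 1) (hab : ∀ x : M, |θ s(x, E.a x) * θ s(x, E.b x)| < 1)
    (h1 : ∀ u w : {v // v ∉ M}, G.Adj u w → θ' s(u, w) = θ s(u, w))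
    (h2 : ∀ x : M, θ' (E.ed x) = θ s(x, E.a x) * θ s(x, E.b x))
    {ν : Measure ({v // v ∉ M} → ℤˣ)} (hν : IsIsing E.H θ' ν) {μ : Measure (V → ℤˣ)}
    (hμ : IsIsing G θ μ) {Γ : Set (G ≃g G)}
    (hΓ : ∀ g ∈ Γ, (∀ v, g v ∈ M ↔ v ∈ M) ∧ Keeps G θ g) :
    Factor G Γ μ ↔ Factor E.H {h | ∃ g ∈ Γ, ∃ hg, E.res g hg = h} ν := by
  have law := E.fill_law hG ha hb hab h1 h2 hν hμ
  have := hν.1
  constructor
  · rintro ⟨Φ, hΦ, hl, he⟩
    obtain ⟨L, hL, hLg⟩ := E.exists_labels hG
    have mR : Measurable fun (σ : V → ℤˣ) (u : {v // v ∉ M}) => σ u :=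
      measurable_pi_lambda _ fun _ => measurable_pi_apply _
    refine ⟨_, (mR.comp hΦ).comp hL.measurable, ?_, ?_⟩
    · rw [← Measure.map_map (mR.comp hΦ) hL.measurable, hL.map_eq, ← Measure.map_map mR hΦ, hl,
        ← law, Measure.map_map mR (E.measurable_fill θ)]
      convert (measurePreserving_fst (μ := ν) (ν := lab M)).map_eq using 2
      funext q u
      exact E.fill_val θ q u
    · rintro _ ⟨g, hg, hg', rfl⟩
      filter_upwards [hL.quasiMeasurePreserving.ae (he g hg)] with y hy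
      funext u
      simp only [Function.comp, hLg g hg' y, hy]
      rfl
  · rintro ⟨Φ, hΦ, hl, he⟩
    have mp := ((show MeasurePreserving Φ (lab _) ν from ⟨hΦ, hl⟩).prod
      (MeasurePreserving.id (lab M))).comp (mp_split M)
    refine ⟨_, (E.measurable_fill θ).comp mp.measurable, ?_, fun g hg => ?_⟩
    · rw [← Measure.map_map (E.measurable_fill θ) mp.measurable, mp.map_eq, law]
    · obtain ⟨k1, k2⟩ := hΓ g hg
      have hg' : ∀ v, g.symm v ∈ M ↔ v ∈ M := fun v => by rw [← k1, g.apply_symm_apply]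
      filter_upwards [(measurePreserving_fst.comp (mp_split M)).quasiMeasurePreserving.ae
        (he _ ⟨g, hg, k1, rfl⟩)] with x hx
      funext v
      refine Eq.trans ?_ (E.fill_aut g.symm hg' k2.symm _ _ v)
      exact congrArg (fun σ => E.fill θ (σ, _) v) hx

theorem series_univ (hG : G.IsTree) [G.LocallyFinite] {θ : Sym2 V → ℝ}
    {θ' : Sym2 {v // v ∉ M} → ℝ} (hθ : ∀ u v, G.Adj u v → |θ s(u, v)| < 1)
    (h1 : ∀ u w : {v // v ∉ M}, G.Adj u w → θ' s(u, w) = θ s(u, w))
    (h2 : ∀ x : M, θ' (E.ed x) = θ s(x, E.a x) * θ s(x, E.b x))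
    {ν : Measure ({v // v ∉ M} → ℤˣ)} (hν : IsIsing E.H θ' ν) {μ : Measure (V → ℤˣ)}
    (hμ : IsIsing G θ μ) (hΓ : ∀ g : G ≃g G, (∀ v, g v ∈ M ↔ v ∈ M) ∧ Keeps G θ g)
    (hh : ∀ (h : E.H ≃g E.H) (u w : {v // v ∉ M}), G.Adj (h u) (h w) ↔ G.Adj u w) :
    Factor G Set.univ μ ↔ Factor E.H Set.univ ν := by
  rw [E.series hG (fun x => (hθ _ _ (E.adj_a x)).le) (fun x => (hθ _ _ (E.adj_b x)).le)
    (fun x => by
      rw [abs_mul]
      exact mul_lt_one_of_nonneg_of_lt_one_left (abs_nonneg _) (hθ _ _ (E.adj_a x))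
        (hθ _ _ (E.adj_b x)).le) h1 h2 hν hμ fun g _ => hΓ g]
  refine iff_of_eq (congrArg (Factor E.H · ν) (Set.eq_univ_of_forall fun h => ?_))
  obtain ⟨g, hg, e⟩ := E.exists_ext hG.isAcyclic h (hh h)
  exact ⟨g, trivial, hg, e⟩

end Ends

end Vale.Agent.N161X
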